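import Vale.Agent.N215.Dom5
import Vale.Agent.N215.Mer

/-!
# P215: a compact region of the chart which is locally the region above a graph
-/

noncomputable section

namespace Vale.Agent.N215.Cr

open Set Topology Filter P215Z P215Z.Cov P215.H788

/-! ### sets which are locally regions above a graph -/

/-- the levels of the faces `c ≤ z j` -/
def Up (c : ℝ) : Prop := ∃ n : ℤ, 8 * c = n ∧ (n % 4 = 1 ∨ n % 4 = 2)

theorem up_add (c : ℝ) (k : ℤ) : Up (c + k) ↔ Up c := by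
  constructor
  · rintro ⟨n, h, h'⟩
    exact ⟨n - 8 * k, by push_cast; linarith, by omega⟩
  · rintro ⟨n, h, h'⟩
    exact ⟨n + 8 * k, by push_cast; linarith, by omega⟩

open Classical in
/-- the direction which points into every face through `y` -/
def vv (y : R4) : R4 := fun j => if Up (y j) then 1 else -1

theorem vv_cases (y : R4) (j : Fin 4) : vv y j = 1 ∨ vv y j = -1 := by
  unfold vv
  split_ifs <;> simp

/-- near `y` the set `A` is `{0 ≤ φ}`, and `φ` grows at unit speed in the direction `vv y` -/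
def GrAt (A : Set R4) (y : R4) : Prop :=
  ∃ φ : R4 → ℝ, Continuous φ ∧ (∀ (z : R4) (s : ℝ), φ (z + s • vv y) = φ z + s) ∧
    ∀ᶠ z in 𝓝 y, z ∈ A ↔ 0 ≤ φ z

variable {A B : Set R4} {y : R4}

theorem GrAt.congr (h : GrAt A y) (e : ∀ᶠ z in 𝓝 y, z ∈ B ↔ z ∈ A) : GrAt B y := by
  obtain ⟨φ, h1, h2, h3⟩ := h
  refine ⟨φ, h1, h2, ?_⟩
  filter_upwards [h3, e] with z a b
  exact b.trans a

theorem GrAt.inter (h : GrAt A y) (h' : GrAt B y) : GrAt (A ∩ B) y := by
  obtain ⟨φ, h1, h2, h3⟩ := h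
  obtain ⟨ψ, k1, k2, k3⟩ := h'
  refine ⟨fun z => min (φ z) (ψ z), h1.min k1, fun z s => ?_, ?_⟩
  · simp only [h2, k2, min_add_add_right]
  · filter_upwards [h3, k3] with z a b
    rw [le_min_iff, mem_inter_iff, a, b]

theorem GrAt.union (h : GrAt A y) (h' : GrAt B y) : GrAt (A ∪ B) y := by
  obtain ⟨φ, h1, h2, h3⟩ := h
  obtain ⟨ψ, k1, k2, k3⟩ := h'
  refine ⟨fun z => max (φ z) (ψ z), h1.max k1, fun z s => ?_, ?_⟩
  · simp only [h2, k2, max_add_add_right]
  · filter_upwards [h3, k3] with z a b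
    rw [le_max_iff, mem_union, a, b]

theorem lin_step (y : R4) (c : ℝ) (z : R4) (s : ℝ) :
    c + vv y 0 * ((z + s • vv y) 0 - y 0) = c + vv y 0 * (z 0 - y 0) + s := by
  simp only [Pi.add_apply, Pi.smul_apply, smul_eq_mul]
  rcases vv_cases y 0 with e | e <;> rw [e] <;> ring

theorem grAt_of_nhds (h : A ∈ 𝓝 y) : GrAt A y := by
  have hc : Continuous fun z : R4 => 1 + vv y 0 * (z 0 - y 0) := by fun_prop
  refine ⟨_, hc, lin_step y 1, ?_⟩
  filter_upwards [h, hc.continuousAt.eventually (lt_mem_nhds (a := 0) (by simp))] with z a b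
  exact iff_of_true a b.le

theorem grAt_of_compl (h : Aᶜ ∈ 𝓝 y) : GrAt A y := by
  have hc : Continuous fun z : R4 => -1 + vv y 0 * (z 0 - y 0) := by fun_prop
  refine ⟨_, hc, lin_step y (-1), ?_⟩
  filter_upwards [h, hc.continuousAt.eventually (gt_mem_nhds (a := 0) (by simp))] with z a b
  exact iff_of_false a (not_le.2 b)

theorem grAt_ge (j : Fin 4) {n : ℤ} (hn : n % 4 = 1 ∨ n % 4 = 2) (y : R4) :
    GrAt {z | (n : ℝ) ≤ 8 * z j} y := by
  have hc : Continuous fun z : R4 => 8 * z j := by fun_prop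
  rcases lt_trichotomy (n : ℝ) (8 * y j) with h | h | h
  · exact grAt_of_nhds ((hc.continuousAt.eventually (lt_mem_nhds h)).mono fun z hz => hz.le)
  · have e : vv y j = 1 := if_pos ⟨n, h.symm, hn⟩
    refine ⟨fun z => z j - y j, by fun_prop, fun z s => ?_, Eventually.of_forall fun z => ?_⟩
    · simp only [Pi.add_apply, Pi.smul_apply, smul_eq_mul, e]
      ring
    · rw [mem_ofPred_eq, h]
      constructor <;> intro <;> linarith
  · exact grAt_of_compl ((hc.continuousAt.eventually (gt_mem_nhds h)).mono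
      fun z hz => hz.not_ge)

theorem grAt_le (j : Fin 4) {n : ℤ} (hn : n % 4 = 3) (y : R4) :
    GrAt {z | 8 * z j ≤ (n : ℝ)} y := by
  have hc : Continuous fun z : R4 => 8 * z j := by fun_prop
  rcases lt_trichotomy (n : ℝ) (8 * y j) with h | h | h
  · exact grAt_of_compl ((hc.continuousAt.eventually (lt_mem_nhds h)).mono
      fun z hz => hz.not_ge)
  · have e : vv y j = -1 := if_neg (by
      rintro ⟨m, k, k'⟩
      have : n = m := by exact_mod_cast h.trans k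
      omega)
    refine ⟨fun z => y j - z j, by fun_prop, fun z s => ?_, Eventually.of_forall fun z => ?_⟩
    · simp only [Pi.add_apply, Pi.smul_apply, smul_eq_mul, e]
      ring
    · rw [mem_ofPred_eq, h]
      constructor <;> intro <;> linarith
  · exact grAt_of_nhds ((hc.continuousAt.eventually (gt_mem_nhds h)).mono fun z hz => hz.le)

theorem grAt_list {α : Type} (l : List α) {f : α → Set R4} (h : ∀ a ∈ l, GrAt (f a) y) :
    GrAt {z | ∀ a ∈ l, z ∈ f a} y := by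
  induction l with
  | nil => exact grAt_of_nhds (by simp)
  | cons a l ih =>
    refine ((h a (by simp)).inter (ih fun b hb => h b (by simp [hb]))).congr
      (Eventually.of_forall fun z => ?_)
    simp

theorem grAt_three {f : Fin 3 → Set R4} (h : ∀ i, GrAt (f i) y) : GrAt {z | ∃ i, z ∈ f i} y := by
  refine ((h 0).union ((h 1).union (h 2))).congr (Eventually.of_forall fun z => ?_)
  simp [Fin.exists_fin_succ]

theorem GrAt.comap {T : R4 → R4} {π : Fin 4 → Fin 4} {c : Fin 4 → ℤ}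
    (hT : ∀ w j, T w j = w (π j) + c j) (h : GrAt A (T y)) : GrAt (T ⁻¹' A) y := by
  obtain ⟨φ, h1, h2, h3⟩ := h
  have hc : Continuous T := continuous_pi fun j => by
    simp only [hT]
    fun_prop
  refine ⟨fun z => φ (T z), h1.comp hc, fun z s => ?_, hc.continuousAt.eventually h3⟩
  refine Eq.trans (congrArg φ ?_) (h2 (T z) s)
  funext j
  have e : vv (T y) j = vv y (π j) := by
    unfold vv
    rw [hT, up_add]
  simp only [hT, Pi.add_apply, Pi.smul_apply, smul_eq_mul, e]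
  ring

/-! ### the compact region -/

/-- the corners of a box, in units of `1/8` -/
structure Z8 where
  x0 : ℤ
  x1 : ℤ
  y0 : ℤ
  y1 : ℤ
  z0 : ℤ
  z1 : ℤ
  t0 : ℤ
  t1 : ℤ

/-- the complement of the open box -/
def out (C : Z8) : Set R4 :=
  {z | 8 * z 0 ≤ (C.x0 : ℝ)} ∪ ({z | (C.x1 : ℝ) ≤ 8 * z 0} ∪ ({z | 8 * z 1 ≤ (C.y0 : ℝ)} ∪
    ({z | (C.y1 : ℝ) ≤ 8 * z 1} ∪ ({z | 8 * z 2 ≤ (C.z0 : ℝ)} ∪ ({z | (C.z1 : ℝ) ≤ 8 * z 2} ∪
      ({z | 8 * z 3 ≤ (C.t0 : ℝ)} ∪ {z | (C.t1 : ℝ) ≤ 8 * z 3}))))))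

theorem mem_out {C : Z8} {z : R4} : z ∈ out C ↔ 8 * z 0 ≤ (C.x0 : ℝ) ∨ (C.x1 : ℝ) ≤ 8 * z 0 ∨
    8 * z 1 ≤ (C.y0 : ℝ) ∨ (C.y1 : ℝ) ≤ 8 * z 1 ∨ 8 * z 2 ≤ (C.z0 : ℝ) ∨ (C.z1 : ℝ) ≤ 8 * z 2 ∨
    8 * z 3 ≤ (C.t0 : ℝ) ∨ (C.t1 : ℝ) ≤ 8 * z 3 := Iff.rfl

theorem isClosed_out (C : Z8) : IsClosed (out C) := by
  have l : ∀ (c : ℝ) (j : Fin 4), IsClosed {z : R4 | 8 * z j ≤ c} := fun c j =>
    isClosed_le (by fun_prop) continuous_const
  have r : ∀ (c : ℝ) (j : Fin 4), IsClosed {z : R4 | c ≤ 8 * z j} := fun c j =>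
    isClosed_le continuous_const (by fun_prop)
  exact (l _ 0).union ((r _ 0).union ((l _ 1).union ((r _ 1).union ((l _ 2).union ((r _ 2).union
    ((l _ 3).union (r _ 3)))))))

/-- the box `C` thickened by `e` in space, by `1` downwards and by `u` upwards in time -/
def thick (e u : ℤ) (C : Bx) : Z8 :=
  ⟨C.1.x - e, C.2.x + e, C.1.y - e, C.2.y + e, C.1.z - e, C.2.z + e, C.1.t - 1, C.2.t + u⟩

/-- the open boxes which are removed -/
def Rm : List Z8 := cav8.map (thick 1 1) ++ (sig0 ++ sig1).map (thick 1 0) ++ ring.map (thick 0 0)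

/-- the outer walls -/
def wall : Bx := (⟨1, 1, 1, 1⟩, ⟨115, 71, 183, 23⟩)

/-- **the compact region** -/
def N0 : Set R4 := box wall ∩ {z | ∀ C ∈ Rm, z ∈ out C}

theorem Rm_good : ∀ C ∈ Rm, (C.x0 % 4 = 3 ∧ C.y0 % 4 = 3 ∧ C.z0 % 4 = 3 ∧ C.t0 % 4 = 3) ∧
    (C.x1 % 4 = 1 ∨ C.x1 % 4 = 2) ∧ (C.y1 % 4 = 1 ∨ C.y1 % 4 = 2) ∧
    (C.z1 % 4 = 1 ∨ C.z1 % 4 = 2) ∧ (C.t1 % 4 = 1 ∨ C.t1 % 4 = 2) := by
  decide +kernel

theorem mem_wall {z : R4} : z ∈ box wall ↔ (1 ≤ 8 * z 0 ∧ 8 * z 0 ≤ 115) ∧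
    (1 ≤ 8 * z 1 ∧ 8 * z 1 ≤ 71) ∧ (1 ≤ 8 * z 2 ∧ 8 * z 2 ≤ 183) ∧
    (1 ≤ 8 * z 3 ∧ 8 * z 3 ≤ 23) := by
  rw [mem_box_iff]
  simp [wall]

theorem grAt_N0 (y : R4) : GrAt N0 y := by
  refine GrAt.inter ?_ (grAt_list Rm fun C hC => ?_)
  · have a := fun j => grAt_ge j (n := 1) (by norm_num) y
    refine ((((a 0).inter (grAt_le 0 (n := 115) (by norm_num) y)).inter
      (((a 1).inter (grAt_le 1 (n := 71) (by norm_num) y)).inter
      (((a 2).inter (grAt_le 2 (n := 183) (by norm_num) y)).inter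
      ((a 3).inter (grAt_le 3 (n := 23) (by norm_num) y)))))).congr
      (Eventually.of_forall fun z => ?_)
    rw [mem_wall]
    simp
  · obtain ⟨⟨a0, a1, a2, a3⟩, b0, b1, b2, b3⟩ := Rm_good C hC
    exact (grAt_le 0 a0 y).union ((grAt_ge 0 b0 y).union ((grAt_le 1 a1 y).union
      ((grAt_ge 1 b1 y).union ((grAt_le 2 a2 y).union ((grAt_ge 2 b2 y).union
      ((grAt_le 3 a3 y).union (grAt_ge 3 b3 y)))))))

theorem isClosed_Rm : IsClosed {z | ∀ C ∈ Rm, z ∈ out C} := by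
  have : {z | ∀ C ∈ Rm, z ∈ out C} = ⋂ C ∈ Rm, out C := by
    ext z
    simp
  rw [this]
  exact isClosed_biInter fun C _ => isClosed_out C

theorem isCompact_N0 : IsCompact N0 :=
  (show IsCompact (box wall) from box_eq wall ▸ isCompact_Icc).inter_right isClosed_Rm

theorem isClosed_N0 : IsClosed N0 := isCompact_N0.isClosed

theorem N0_sub : N0 ⊆ OO := by
  rintro y ⟨h, h'⟩
  obtain ⟨⟨a0, b0⟩, ⟨a1, b1⟩, ⟨a2, b2⟩, a3, b3⟩ := mem_wall.1 h
  refine ⟨o3_of (by linarith) (by linarith) (by linarith) (by linarith) (by linarith) (by linarith)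
    (by linarith) (by linarith) fun C hC k => ?_, by linarith, by linarith⟩
  obtain ⟨⟨c0, d0⟩, ⟨c1, d1⟩, ⟨c2, d2⟩, c3, d3⟩ := mem_box_iff.1 k
  have := mem_out.1 (h' (thick 1 1 C) (by
    simp only [Rm, List.mem_append]
    exact Or.inl (Or.inl (List.mem_map_of_mem hC))))
  simp only [thick] at this
  push_cast at this
  rcases this with e | e | e | e | e | e | e | e <;> linarith

/-- a closed box with integer corners is in the region -/
def okN (B : Z8) : Bool :=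
  decide (1 ≤ B.x0 ∧ B.x1 ≤ 115 ∧ 1 ≤ B.y0 ∧ B.y1 ≤ 71 ∧ 1 ≤ B.z0 ∧ B.z1 ≤ 183 ∧ 1 ≤ B.t0 ∧
    B.t1 ≤ 23) && Rm.all fun C => decide (B.x1 ≤ C.x0 ∨ C.x1 ≤ B.x0 ∨ B.y1 ≤ C.y0 ∨ C.y1 ≤ B.y0 ∨
      B.z1 ≤ C.z0 ∨ C.z1 ≤ B.z0 ∨ B.t1 ≤ C.t0 ∨ C.t1 ≤ B.t0)

theorem mem_N0 (B : Z8) (h : okN B = true) {y : R4} (a0 : (B.x0 : ℝ) ≤ 8 * y 0)
    (b0 : 8 * y 0 ≤ B.x1) (a1 : (B.y0 : ℝ) ≤ 8 * y 1) (b1 : 8 * y 1 ≤ B.y1)
    (a2 : (B.z0 : ℝ) ≤ 8 * y 2) (b2 : 8 * y 2 ≤ B.z1) (a3 : (B.t0 : ℝ) ≤ 8 * y 3)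
    (b3 : 8 * y 3 ≤ B.t1) : y ∈ N0 := by
  simp only [okN, Bool.and_eq_true, decide_eq_true_eq, List.all_eq_true] at h
  have k : ∀ a b : ℤ, a ≤ b → (a : ℝ) ≤ b := fun a b h => by exact_mod_cast h
  obtain ⟨⟨c0, d0, c1, d1, c2, d2, c3, d3⟩, h⟩ := h
  refine ⟨mem_wall.2 ?_, fun C hC => mem_out.2 ?_⟩
  · have c0 := k _ _ c0
    have d0 := k _ _ d0
    have c1 := k _ _ c1
    have d1 := k _ _ d1
    have c2 := k _ _ c2
    have d2 := k _ _ d2
    have c3 := k _ _ c3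
    have d3 := k _ _ d3
    push_cast at c0 d0 c1 d1 c2 d2 c3 d3
    refine ⟨⟨?_, ?_⟩, ⟨?_, ?_⟩, ⟨?_, ?_⟩, ?_, ?_⟩ <;> linarith
  · exact (h C hC).imp (fun e => b0.trans (k _ _ e)) <| Or.imp (fun e => (k _ _ e).trans a0) <|
      Or.imp (fun e => b1.trans (k _ _ e)) <| Or.imp (fun e => (k _ _ e).trans a1) <|
      Or.imp (fun e => b2.trans (k _ _ e)) <| Or.imp (fun e => (k _ _ e).trans a2) <|
      Or.imp (fun e => b3.trans (k _ _ e)) fun e => (k _ _ e).trans a3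

theorem out_of_sep {B C : Bx} (h : sepB B C = true) {e u : ℤ} (he : e ≤ 1) (hu : u ≤ 1) {y : R4}
    (hy : y ∈ box B) : y ∈ out (thick e u C) := by
  obtain ⟨⟨a0, b0⟩, ⟨a1, b1⟩, ⟨a2, b2⟩, a3, b3⟩ := mem_box_iff.1 hy
  simp only [sepB, Bool.or_eq_true, Nat.blt_eq] at h
  have k : ∀ a b : ℕ, a < b → (a : ℝ) + 1 ≤ b := fun a b h => by exact_mod_cast h
  have he' : (e : ℝ) ≤ 1 := by exact_mod_cast he
  have hu' : (u : ℝ) ≤ 1 := by exact_mod_cast hu
  rw [mem_out]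
  simp only [thick]
  push_cast
  rcases h with ((((((h | h) | h) | h) | h) | h) | h) | h <;> have := k _ _ h
  · exact Or.inl (by linarith)
  · exact Or.inr (Or.inl (by linarith))
  · exact Or.inr (Or.inr (Or.inl (by linarith)))
  · exact Or.inr (Or.inr (Or.inr (Or.inl (by linarith))))
  · exact Or.inr (Or.inr (Or.inr (Or.inr (Or.inl (by linarith)))))
  · exact Or.inr (Or.inr (Or.inr (Or.inr (Or.inr (Or.inl (by linarith))))))
  · exact Or.inr (Or.inr (Or.inr (Or.inr (Or.inr (Or.inr (Or.inl (by linarith)))))))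
  · exact Or.inr (Or.inr (Or.inr (Or.inr (Or.inr (Or.inr (Or.inr (by linarith)))))))

theorem okU_N0 {B : Bx} (h : okU B = true) : box B ⊆ N0 := by
  simp only [okU, okO, Bool.and_eq_true, List.all_eq_true] at h
  intro y hy
  refine ⟨box_sub h.1.2 hy, fun C hC => ?_⟩
  simp only [Rm, List.mem_append, List.mem_map] at hC
  rcases hC with (⟨D, hD, rfl⟩ | ⟨D, hD, rfl⟩) | ⟨D, hD, rfl⟩
  · exact out_of_sep (h.1.1.2 D hD) le_rfl le_rfl hy
  · exact out_of_sep (h.2 D (by simp only [Kl, List.mem_append]; exact Or.inl hD)) le_rfl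
      zero_le_one hy
  · exact out_of_sep (h.2 D (by simp only [Kl, List.mem_append]; exact Or.inr hD)) zero_le_one
      zero_le_one hy

theorem Ug_N0 : Ug ⊆ N0 := by
  rintro y ⟨h0, h1⟩
  rw [abs_lt] at h0
  obtain ⟨h1, h2⟩ := abs_lt.1 h1
  simp only [max_lt_iff] at h2
  simp only [lt_max_iff] at h1
  obtain ⟨⟨a, b⟩, c⟩ := h2
  have a' := abs_lt.1 (show |y 0 - 21 / 2| < 19 / 8 by linarith)
  have b' := abs_lt.1 (show |y 2 - 37 / 2| < 35 / 8 by linarith)
  have c' := abs_lt.1 (show |y 3 - 3 / 2| < 9 / 8 by linarith)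
  rcases h1 with (k | k) | k
  · rcases lt_abs.1 (show 17 / 8 < |y 0 - 21 / 2| by linarith) with k | k
    · refine mem_N0 ⟨101, 103, 35, 37, 113, 183, 3, 21⟩ (by decide +kernel) ?_ ?_ ?_ ?_ ?_ ?_ ?_
        ?_ <;> push_cast <;> linarith
    · refine mem_N0 ⟨65, 67, 35, 37, 113, 183, 3, 21⟩ (by decide +kernel) ?_ ?_ ?_ ?_ ?_ ?_ ?_
        ?_ <;> push_cast <;> linarith
  · rcases lt_abs.1 (show 33 / 8 < |y 2 - 37 / 2| by linarith) with k | k
    · refine mem_N0 ⟨65, 103, 35, 37, 181, 183, 3, 21⟩ (by decide +kernel) ?_ ?_ ?_ ?_ ?_ ?_ ?_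
        ?_ <;> push_cast <;> linarith
    · refine mem_N0 ⟨65, 103, 35, 37, 113, 115, 3, 21⟩ (by decide +kernel) ?_ ?_ ?_ ?_ ?_ ?_ ?_
        ?_ <;> push_cast <;> linarith
  · rcases lt_abs.1 (show 7 / 8 < |y 3 - 3 / 2| by linarith) with k | k
    · refine mem_N0 ⟨65, 103, 35, 37, 113, 183, 19, 21⟩ (by decide +kernel) ?_ ?_ ?_ ?_ ?_ ?_ ?_
        ?_ <;> push_cast <;> linarith
    · refine mem_N0 ⟨65, 103, 35, 37, 113, 183, 3, 5⟩ (by decide +kernel) ?_ ?_ ?_ ?_ ?_ ?_ ?_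
        ?_ <;> push_cast <;> linarith

theorem Wf_N0 {y : R4} (h : y ∈ Wf) (h3 : 5 / 4 ≤ y 3) : y ∈ N0 := by
  obtain ⟨h0, h1⟩ := h
  rw [abs_lt] at h0
  have h2 := (abs_lt.1 h1).2
  simp only [max_lt_iff] at h2
  obtain ⟨⟨a, b⟩, c⟩ := h2
  have a' := abs_lt.1 (show |y 1 - 9 / 2| < 17 / 8 by linarith)
  have b' := abs_lt.1 (show |y 2 - 21 / 2| < 33 / 8 by linarith)
  refine mem_N0 ⟨83, 85, 19, 53, 51, 117, 10, 23⟩ (by decide +kernel) ?_ ?_ ?_ ?_ ?_ ?_ ?_
    ?_ <;> push_cast <;> linarith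

theorem InP_N0 {y : R4} (h : InP y) (h3 : 5 / 4 ≤ y 3) (h4 : y 3 ≤ 23 / 8) : y ∈ N0 := by
  obtain ⟨h0, h0', k1, k1', k2, k2', -⟩ := h
  refine mem_N0 ⟨83, 85, 19, 53, 51, 117, 10, 23⟩ (by decide +kernel) ?_ ?_ ?_ ?_ ?_ ?_ ?_
    ?_ <;> push_cast <;> linarith

theorem InP_not_N0 {y : R4} (h : InP y) (h3 : 7 / 8 < y 3) (h4 : y 3 < 5 / 4) : y ∉ N0 := by
  rintro ⟨-, k⟩
  obtain ⟨h0, h0', k1, k1', k2, k2', h5⟩ := h
  have key : ∀ C ∈ ring, y ∈ out (thick 0 0 C) := fun C hC => k _ (by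
    simp only [Rm, List.mem_append]
    exact Or.inr (List.mem_map_of_mem hC))
  simp only [ring, List.forall_mem_cons, mem_out, thick, sl] at key
  push_cast at key
  obtain ⟨e1, e2, e3, e4, -⟩ := key
  rcases h5 with h5 | h5 | h5 | h5
  · rcases e1 with e | e | e | e | e | e | e | e <;> linarith
  · rcases e2 with e | e | e | e | e | e | e | e <;> linarith
  · rcases e3 with e | e | e | e | e | e | e | e <;> linarith
  · rcases e4 with e | e | e | e | e | e | e | e <;> linarith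

/-! ### the saturated region -/

/-- **the domain**: all the coordinates of the points of the image of `N0` -/
def NN : Set R4 := Mf.Q ⁻¹' (Mf.Q '' N0)

theorem N0_sub_NN : N0 ⊆ NN := subset_preimage_image _ _

theorem image_NN : Mf.Q '' NN = Mf.Q '' N0 :=
  (image_preimage_subset _ _).antisymm (image_mono N0_sub_NN)

theorem mem_NN {y : R4} : y ∈ NN ↔ y ∈ N0 ∨ (∃ i, y ∈ Qo (i, true) ∩ thR i ⁻¹' N0) ∨
    ∃ i, y ∈ (Cov.thE i).symm ⁻¹' (Qo (i, true) ∩ N0) := by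
  constructor
  · rintro ⟨w, hw, h⟩
    rcases Mf.Q_eq.1 h with rfl | ⟨i, k, rfl⟩ | ⟨i, k, rfl⟩
    · exact Or.inl hw
    · refine Or.inr (Or.inr ⟨i, ?_⟩)
      change (Cov.thE i).symm (Cov.thE i w) ∈ Qo (i, true) ∩ N0
      rw [Homeomorph.symm_apply_apply]
      exact ⟨k, hw⟩
    · exact Or.inr (Or.inl ⟨i, k, hw⟩)
  · rintro (h | ⟨i, h, h'⟩ | ⟨i, h, h'⟩)
    · exact N0_sub_NN h
    · exact ⟨_, h', Mf.Q_glue h⟩
    · refine ⟨_, h', (Mf.Q_glue h).symm.trans ?_⟩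
      exact congrArg Mf.Q ((Cov.thE i).apply_symm_apply y)

theorem NN_sub : NN ⊆ OO := by
  intro y hy
  rcases mem_NN.1 hy with h | ⟨i, h, -⟩ | ⟨i, h, -⟩
  · exact N0_sub h
  · exact Qo_sub h
  · have k := Qo_sub (thR_mem h)
    rwa [show thR i ((Cov.thE i).symm y) = y from (Cov.thE i).apply_symm_apply y] at k

theorem NN_sat (i : Fin 3) (y : R4) (hy : y ∈ Qo (i, true)) : y ∈ NN ↔ thR i y ∈ NN := by
  simp only [NN, mem_preimage, Mf.Q_glue hy]

/-- off the cubes the domain is the compact region -/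
theorem NN_off {y : R4} (h : ∀ l, y ∉ Qo l) : y ∈ NN ↔ y ∈ N0 := by
  refine ⟨?_, fun k => N0_sub_NN k⟩
  rintro ⟨w, hw, e⟩
  rwa [Mf.Q_inj_of_not_mem e.symm h]

theorem grAt_NN {y : R4} (hy : y ∈ OO) : GrAt NN y := by
  refine ((grAt_N0 y).union ((grAt_three (f := fun i => Qo (i, true) ∩ thR i ⁻¹' N0)
    fun i => ?_).union (grAt_three (f := fun i => (Cov.thE i).symm ⁻¹' (Qo (i, true) ∩ N0))
    fun i => ?_))).congr (Eventually.of_forall fun z => mem_NN)
  · by_cases h : y ∈ Qo (i, true)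
    · refine (GrAt.comap (T := thR i) (fun _ _ => rfl) (grAt_N0 _)).congr ?_
      filter_upwards [(isOpen_Qo _).mem_nhds h] with z hz
      exact and_iff_right hz
    · refine grAt_of_compl ?_
      by_cases h1 : y ∈ Mf.Qb (i, true)
      · have h2 : Cov.thE i y ∉ N0 := fun k => h (Mf.mem_Qo_of_Qb h1 hy (N0_sub k))
        exact mem_of_superset ((isClosed_N0.preimage (Cov.thE i).continuous).isOpen_compl.mem_nhds h2)
          fun z hz k => hz k.2
      · exact mem_of_superset ((Mf.isClosed_Qb _).isOpen_compl.mem_nhds h1)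
          fun z hz k => hz (Mf.Qo_sub_Qb k.1)
  · have hc := (Cov.thE i).symm.continuous
    by_cases h : (Cov.thE i).symm y ∈ Qo (i, true)
    · refine (GrAt.comap (T := (Cov.thE i).symm) (π := (ppi i).symm)
        (c := fun j => -(org (i, false) ((ppi i).symm j) - org (i, true) j))
        (fun w j => ?_) (grAt_N0 _)).congr ?_
      · rw [Int.cast_neg, ← sub_eq_add_neg]
        rfl
      · filter_upwards [((isOpen_Qo _).preimage hc).mem_nhds h] with z hz
        exact and_iff_right hz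
    · refine grAt_of_compl ?_
      by_cases h1 : (Cov.thE i).symm y ∈ Mf.Qb (i, true)
      · have h2 : (Cov.thE i).symm y ∉ N0 := fun k => h (Mf.mem_Qo_of_Qb h1 (N0_sub k) (by
          rwa [show thR i ((Cov.thE i).symm y) = y from (Cov.thE i).apply_symm_apply y]))
        exact mem_of_superset ((isClosed_N0.preimage hc).isOpen_compl.mem_nhds h2)
          fun z hz k => hz k.2
      · exact mem_of_superset (((Mf.isClosed_Qb _).preimage hc).isOpen_compl.mem_nhds h1)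
          fun z hz k => hz (Mf.Qo_sub_Qb k.1)

/-- the local form of the domain -/
theorem NN_loc (y : R4) (hy : y ∈ NN) : NN ∈ 𝓝 y ∨ ∃ (φ : R4 → ℝ) (v : R4), Continuous φ ∧
    (v 3 = 1 ∨ v 3 = -1) ∧ (∀ (z : R4) (s : ℝ), φ (z + s • v) = φ z + s) ∧ φ y = 0 ∧
    ∀ᶠ z in 𝓝 y, z ∈ NN ↔ 0 ≤ φ z := by
  obtain ⟨φ, h1, h2, h3⟩ := grAt_NN (NN_sub hy)
  rcases (h3.self_of_nhds.1 hy).eq_or_lt with h | h
  · exact Or.inr ⟨φ, vv y, h1, vv_cases y 3, h2, h.symm, h3⟩
  · left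
    filter_upwards [h3, h1.continuousAt.eventually (lt_mem_nhds h)] with z a b
    exact a.2 b.le

theorem isOpen_Ug : IsOpen Ug := by
  refine IsOpen.and (isOpen_lt ?_ continuous_const) (isOpen_lt ?_ continuous_const) <;> fun_prop

theorem isOpen_Wf : IsOpen Wf := by
  refine IsOpen.and (isOpen_lt ?_ continuous_const) (isOpen_lt ?_ continuous_const) <;> fun_prop

theorem Ug_nhds {y : R4} (h : y ∈ Ug) : NN ∈ 𝓝 y :=
  mem_of_superset (isOpen_Ug.mem_nhds h) (Ug_N0.trans N0_sub_NN)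

theorem Wf_nhds {y : R4} (h : y ∈ Wf) (h3 : 5 / 4 < y 3) : NN ∈ 𝓝 y := by
  filter_upwards [isOpen_Wf.mem_nhds h,
    (continuous_apply 3).continuousAt.eventually (lt_mem_nhds h3)] with z a b
  exact N0_sub_NN (Wf_N0 a b.le)

/-- near the top of the ring the domain is a half space -/
theorem NN_half {y : R4} (h1 : InP y) (h2 : y 3 = 5 / 4) :
    ∀ᶠ z in 𝓝 y, z ∈ NN ↔ 5 / 4 ≤ z 3 := by
  have c3 : ContinuousAt (fun z : R4 => z 3) y := (continuous_apply 3).continuousAt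
  filter_upwards [isOpen_InP.mem_nhds h1, c3.eventually (lt_mem_nhds (show 1 < y 3 by linarith)),
    c3.eventually (gt_mem_nhds (show y 3 < 2 by linarith))] with z z1 z2 z3
  rw [NN_off (InP_not_cube z1)]
  exact ⟨fun k => not_lt.1 fun hc => InP_not_N0 z1 (by linarith) hc k,
    fun k => InP_N0 z1 k (by linarith)⟩

theorem not_nhds_of_InP {y : R4} (h1 : InP y) (h2 : y 3 = 5 / 4) : NN ∉ 𝓝 y := by
  intro hU
  have h3 : ∀ᶠ z in 𝓝 y, 5 / 4 ≤ z 3 := by
    filter_upwards [NN_half h1 h2, hU] with z e1 e2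
    exact e1.1 e2
  have hc : Continuous fun s : ℝ => Function.update y 3 s := continuous_const.update 3 continuous_id
  have h4 : Function.update y 3 (5 / 4) = y := by rw [← h2, Function.update_eq_self]
  have h5 : ∀ᶠ s in 𝓝 (5 / 4 : ℝ), 5 / 4 ≤ Function.update y 3 s 3 :=
    (hc.tendsto' _ y h4).eventually h3
  simp only [Function.update_self] at h5
  have h6 : (5 / 4 : ℝ) ∈ interior (Ici (5 / 4 : ℝ)) := mem_interior_iff_mem_nhds.2 h5
  rw [interior_Ici] at h6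
  exact lt_irrefl (5 / 4 : ℝ) h6

/-- on the neighbourhood of the disc the domain is the half `5/4 ≤ t` -/
theorem Wf_NN_iff {y : R4} (h : y ∈ Wf) (h3 : 7 / 8 < y 3) : y ∈ NN ↔ 5 / 4 ≤ y 3 := by
  refine ⟨fun k => not_lt.1 fun hc => ?_, fun k => N0_sub_NN (Wf_N0 h k)⟩
  have h1 := Wf_InP h hc.le
  exact InP_not_N0 h1 h3 hc ((NN_off (InP_not_cube h1)).1 k)

/-! ### the obstruction -/

open ND

theorem Kp_cases : ∀ B ∈ Kp, B.1.x = 120 ∨ ((sig0 ++ sig1).any (subB B) = true ∧ B.2.t = 8) ∨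
    B ∈ cc := by
  decide +kernel

theorem sig_time : ∀ C ∈ sig0 ++ sig1, C.1.t = 8 ∧ C.2.t = 10 := by decide

theorem AA_NN {y : R4} (h : y ∈ AA) (hN : y ∈ NN) : ∃ z : Circ, y = c0 z.1 := by
  have h0 := (NN_off (AA_cube h)).1 hN
  refine AA_UU h ?_
  obtain ⟨B, hB, k⟩ := h
  obtain ⟨⟨a0, b0⟩, ⟨a1, b1⟩, ⟨a2, b2⟩, a3, b3⟩ := mem_box_iff.1 k
  have hx := (mem_wall.1 h0.1).1.2
  rcases Kp_cases B hB with e | ⟨e, e'⟩ | e
  · rw [e] at a0
    push_cast at a0
    linarith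
  · obtain ⟨C, hC, k1⟩ := List.any_eq_true.1 e
    obtain ⟨⟨c0, d0⟩, ⟨c1, d1⟩, ⟨c2, d2⟩, c3, -⟩ := mem_box_iff.1 (box_sub k1 k)
    have := mem_out.1 (h0.2 (thick 1 0 C) (by
      simp only [Rm, List.mem_append (s := _ ++ List.map _ _),
        List.mem_append (s := List.map _ cav8)]
      exact Or.inl (Or.inr (List.mem_map_of_mem hC))))
    simp only [thick, (sig_time C hC).2] at this
    rw [e'] at b3
    push_cast at this b3
    rcases this with e | e | e | e | e | e | e | e <;> linarith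
  · have hP : InP y ∧ 1 ≤ y 3 ∧ y 3 ≤ 5 / 4 := by
      simp only [cc, List.mem_cons, List.not_mem_nil, or_false] at e
      rcases e with rfl | rfl | rfl | rfl <;> push_cast at a0 b0 a1 b1 a2 b2 a3 b3 <;>
        refine ⟨⟨by linarith, by linarith, by linarith, by linarith, by linarith, by linarith, ?_⟩,
          by linarith, by linarith⟩
      · exact Or.inl (by linarith)
      · exact Or.inr (Or.inl (by linarith))
      · exact Or.inr (Or.inr (Or.inl (by linarith)))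
      · exact Or.inr (Or.inr (Or.inr (by linarith)))
    exact ⟨N0_sub h0, by linarith, Or.inr ⟨hP.1, hP.2.2.antisymm
      (not_lt.1 fun hc => InP_not_N0 hP.1 (by linarith [hP.2.1]) hc h0)⟩⟩

/-- no disc in the image of `U` all of whose double point loops are null-homotopic -/
theorem noNull_of {U : Set R4} (hO : U ⊆ OO) (hA : ∀ y ∈ AA, y ∈ U → ∃ z : Circ, y = c0 z.1)
    {X : Type} [TopologicalSpace X] [SimplyConnectedSpace X]
    [LocallyPathConnectedSpace X] (D : C(X, Wb))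
    (hK : ∀ (x x' : X) (h : D x = D x') (l : Path x x'),
      ((l.map D.continuous).cast rfl h).Homotopic (Path.refl (D x)))
    (hU : ∀ x, ∃ y ∈ U, D x = pr (pt 1 y)) (ι : C(Circ, X))
    (hb : ∀ z : Circ, D (ι z) = pr (pt 1 (c0 z.1))) : False := by
  obtain ⟨F, ⟨h0, h1⟩, -⟩ := cover.isCoveringMap.existsUnique_continuousMap_lifts D
    (ι z0) (pt 1 (c0 z0.1)) (hb z0).symm
  have h1' : ∀ x, pr (F x) = D x := congrFun h1
  have hinj : ∀ x x', D x = D x' → F x = F x' := by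
    intro x x' h
    let l : Path x x' := PathConnectedSpace.somePath x x'
    have k := cover.isCoveringMap.liftPath_apply_one_eq_of_homotopicRel (hK x x' h l) (F x)
      ((Path.source _).trans (h1' x).symm) ((Path.source _).trans (h1' x).symm)
    have k1 : ((l.map F.continuous : Path (F x) (F x')) : C(unitInterval, Wt)) =
        cover.isCoveringMap.liftPath ((l.map D.continuous).cast rfl h) (F x)
          ((Path.source _).trans (h1' x).symm) :=
      (cover.isCoveringMap.eq_liftPath_iff' _).2 ⟨funext fun t => h1' _, Path.source _⟩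
    have k2 : ((Path.refl (F x) : Path (F x) (F x)) : C(unitInterval, Wt)) =
        cover.isCoveringMap.liftPath (Path.refl (D x)) (F x)
          ((Path.source _).trans (h1' x).symm) :=
      (cover.isCoveringMap.eq_liftPath_iff' _).2 ⟨funext fun _ => h1' _, rfl⟩
    have k3 := (congrFun (congrArg DFunLike.coe k1) 1).trans
      (k.trans (congrFun (congrArg DFunLike.coe k2) 1).symm)
    exact ((l.map F.continuous).target.symm.trans k3).symm
  have hc0 : Continuous fun z : Circ => pt 1 (c0 z.1) :=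
    (continuous_pt 1).comp (continuous_c0.comp continuous_subtype_val)
  have h2 : ∀ z : Circ, F (ι z) = pt 1 (c0 z.1) := by
    have : PreconnectedSpace Circ := Subtype.preconnectedSpace
      (isPreconnected_sphere (by simp [← Module.finrank_eq_rank]) _ _)
    exact congrFun (cover.isCoveringMap.eq_of_comp_eq (g₁ := fun z : Circ => F (ι z))
      (g₂ := fun z : Circ => pt 1 (c0 z.1)) (F.continuous.comp ι.continuous) hc0
      (funext fun z => (h1' _).trans (hb z)) z0 h0)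
  let T : Set Wt := pt 1 '' AA ∪ range F
  let φ : C(AA, T) := ⟨fun y => ⟨pt 1 y.1, Or.inl ⟨y.1, y.2, rfl⟩⟩,
    ((continuous_pt 1).comp continuous_subtype_val).subtype_mk _⟩
  let F' : C(X, T) := ⟨fun x => ⟨F x, Or.inr ⟨x, rfl⟩⟩, F.continuous.subtype_mk _⟩
  let v : C(Circ, T) := φ.comp ⟨fun z => ⟨b1 z.1, b1_mem z⟩,
    (continuous_b1.comp continuous_subtype_val).subtype_mk _⟩
  have h3 := b1_triv (φ := φ) (F'.comp ι) (fun z _ => Subtype.ext (h2 z))
    ((SimplyConnectedSpace.paths_homotopic (alP.map ι.continuous) (beP.map ι.continuous)).map F')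
    v (fun _ _ => rfl)
  obtain ⟨P, hP⟩ := extend v h3
  have key : ∀ y ∈ AA, ∀ x, pr (pt 1 y) = pr (F x) → pt 1 y = F x := by
    intro y hy x h
    obtain ⟨y', hy', e⟩ := hU x
    rw [h1', e] at h
    obtain rfl : y = y' := Q.eq_of_q_eq (AA_cube hy) h
    obtain ⟨z, rfl⟩ := hA _ hy hy'
    rw [hinj _ _ (e.trans (hb z).symm), h2]
  refine Q.no_lift (fun x => (P x).1) (continuous_subtype_val.comp P.continuous) (fun x => ?_)
    (fun z => ?_) fun x x' h => ?_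
  · rcases (P x).2 with ⟨y, hy, e⟩ | ⟨x', e⟩
    · exact ⟨1, y, AA_sub hy, AA_bot hy, e.symm⟩
    · obtain ⟨y, hy, e'⟩ := hU x'
      obtain ⟨g, hg⟩ := pr_eq ((h1' x').trans e')
      exact ⟨g, y, Q.mem_OO' (hO hy), fun h => absurd h (hO hy).2.1.ne', e.symm.trans hg⟩
  · rw [hP]
    rfl
  · rcases (P x).2 with ⟨y, hy, e⟩ | ⟨a, e⟩ <;> rcases (P x').2 with ⟨y', hy', e'⟩ | ⟨a', e'⟩ <;>
      rw [← e, ← e'] at h ⊢
    · rw [Q.eq_of_q_eq (AA_cube hy) h]
    · exact key y hy a' h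
    · exact (key y' hy' a h.symm).symm
    · rw [h1', h1'] at h
      exact hinj _ _ h

/-- **Every round disc over `NN` with the boundary `c0` has an essential double point loop.**
The space `M` is mapped injectively to the plumbed chart, into the image of `NN`. -/
theorem loop_NN {M : Type} [TopologicalSpace M] (j : C(M, Wb)) (hj : Function.Injective j)
    (hM : ∀ P, ∃ y ∈ NN, j P = Mf.Q y) (D : C(D2, M))
    (hb : ∀ p : D2, ‖p.1‖ = 1 →
      j (D p) = Mf.Q (c0 (p.1 0 / max |p.1 0| |p.1 1|, p.1 1 / max |p.1 0| |p.1 1|))) :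
    ∃ (p q : D2) (h : D p = D q) (l : Path p q),
      ¬ ((l.map D.continuous).cast rfl h).Homotopic (Path.refl (D p)) := by
  by_contra hn
  push Not at hn
  have : ContractibleSpace D2 := (convex_closedBall (0 : E 2) 1).contractibleSpace ⟨0, by simp⟩
  have : LocallyPathConnectedSpace D2 := (convex_closedBall (0 : E 2) 1).locallyPathConnectedSpace
  refine noNull_of NN_sub (fun _ => AA_NN) (j.comp D) (fun x x' h l => (hn x x' (hj h) l).map j)
    (fun x => hM (D x))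
    ⟨fun z => rd z.toDisc, continuous_rd.comp (continuous_subtype_val.subtype_mk _)⟩ fun z => ?_
  have hn := inv_ne_zero (rd_pos z.toDisc).ne'
  have e : ((rd z.toDisc).1 0 / max |(rd z.toDisc).1 0| |(rd z.toDisc).1 1|,
      (rd z.toDisc).1 1 / max |(rd z.toDisc).1 0| |(rd z.toDisc).1 1|) = z.1 := by
    rw [rd_max, rd_zero, rd_one]
    exact Prod.ext (mul_div_cancel_left₀ _ hn) (mul_div_cancel_left₀ _ hn)
  change j (D (rd z.toDisc)) = _
  rw [hb _ (norm_rd z), e]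
  rfl

/-- **No embedded round disc over `NN` has the boundary `c0`.** -/
theorem noDisc_NN {M : Type} [TopologicalSpace M] (j : C(M, Wb)) (hj : Function.Injective j)
    (hM : ∀ P, ∃ y ∈ NN, j P = Mf.Q y) (D : C(D2, M)) (hi : Function.Injective D)
    (hb : ∀ p : D2, ‖p.1‖ = 1 →
      j (D p) = Mf.Q (c0 (p.1 0 / max |p.1 0| |p.1 1|, p.1 1 / max |p.1 0| |p.1 1|))) :
    False := by
  obtain ⟨p, q, h, l, k⟩ := loop_NN j hj hM D hb
  obtain rfl := hi h
  have : ContractibleSpace D2 := (convex_closedBall (0 : E 2) 1).contractibleSpace ⟨0, by simp⟩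
  exact k ((SimplyConnectedSpace.paths_homotopic l (Path.refl p)).map D)

end Vale.Agent.N215.Cr
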