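import Vale.Agent.N215C.Port
import Vale.Agent.N215C.Reg

/-!
# P215: the compact counterexample
-/

noncomputable section

namespace Vale.Agent.N215.Cr

open Set P215Z

/-- the compact domain -/
def DN : Mc.Dom where
  U := NN
  y0 := yb
  mem0 := N0_sub_NN (Ug_N0 yb_Ug)
  sub := NN_sub
  sat := NN_sat
  loc := NN_loc

theorem good_DN : Mc.Good DN where
  ok _ h _ _ _ := (okU_N0 h).trans N0_sub_NN
  ug := Ug_N0.trans N0_sub_NN
  wf _ h k := N0_sub_NN (Wf_N0 h k)
  low _ h k k' hN := absurd ((Wf_NN_iff h (by linarith)).1 hN) (not_le.2 k')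
  aa _ := AA_NN

/-- **Disc embedding data in a compact manifold without embedded discs.** -/
theorem exists_compact :
    ∃ (M : Type) (_ : TopologicalSpace M) (_ : T2Space M) (_ : SecondCountableTopology M)
      (_ : CompactSpace M) (_ : ConnectedSpace M) (_ : ChartedSpace H4 M), IsOriented M ∧
      ∃ d : Data M disc sph 1, (∃! z : D2 × S2, (d.f 0).surf z.1 = (d.g 0).surf z.2) ∧
        ∀ F : C(D2, M), (∀ p : D2, ‖p.1‖ = 1 → F p = (d.f 0).surf p) →
          ∃ (p q : D2) (h : F p = F q) (l : Path p q),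
            ¬ ((l.map F.continuous).cast rfl h).Homotopic (Path.refl (F p)) :=
  Mc.exists_compact DN good_DN rfl isCompact_N0 image_NN

end Vale.Agent.N215.Cr
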