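import Vale.Agent.N215C.Port
import Vale.Agent.N215C.Reg

/-!
# P215: the compact example
-/

noncomputable section

namespace Vale.Agent.N215.Mc

open Set Topology Filter P215Z P215Z.Cov P215.H788
open scoped Manifold

theorem yb_NN : yb ∈ Cr.NN := Cr.N0_sub_NN (Cr.Ug_N0 yb_Ug)

/-- the compact domain -/
def DN : Dom := ⟨Cr.NN, yb, yb_NN, Cr.NN_sub, Cr.NN_sat, Cr.NN_loc⟩

theorem good_DN : Good DN where
  ok _ hB _ _ _ := (Cr.okU_N0 hB).trans Cr.N0_sub_NN
  ug := Cr.Ug_N0.trans Cr.N0_sub_NN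
  wf _ h k := Cr.N0_sub_NN (Cr.Wf_N0 h k)
  low _ h h1 h2 k := absurd ((Cr.Wf_NN_iff h (by linarith)).1 k) (not_le.2 h2)
  aa _ := Cr.AA_NN

/-- **The compact example.** -/
theorem compact_example :
    ∃ (M : Type) (_ : TopologicalSpace M) (_ : T2Space M) (_ : SecondCountableTopology M)
      (_ : CompactSpace M) (_ : ConnectedSpace M) (_ : ChartedSpace H4 M), IsOriented M ∧
      ∃ d : Data M disc sph 1, (∃! z : D2 × S2, (d.f 0).surf z.1 = (d.g 0).surf z.2) ∧
        ∀ F : C(D2, M), (∀ p : D2, ‖p.1‖ = 1 → F p = (d.f 0).surf p) →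
          ∃ (p q : D2) (h : F p = F q) (l : Path p q),
            ¬ ((l.map F.continuous).cast rfl h).Homotopic (Path.refl (F p)) :=
  exists_compact DN good_DN rfl Cr.isCompact_N0 Cr.image_NN

end Vale.Agent.N215.Mc
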