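import Vale.Agent.N215.Ori

/-!
# P215: four-manifolds cut out of the chart, whose boundary is locally a graph

For a subset `U` of the chart `OO`, saturated for the three plumbings and locally either open or
the region over a graph, the quotient of `U` by the plumbings is an oriented topological
four-manifold with boundary.
-/

noncomputable section

namespace Vale.Agent.N215.Mc

open Set Topology Filter Metric
open Vale.Agent.P215Z Vale.Agent.P215Z.Cov
open Vale.Agent.N215.Mf hiding Dom toE ofE toH ofE_toE toE_ofE continuous_toE continuous_ofE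
  continuous_toH toH_val toH_ofE le_ofE toE_zero
open scoped Manifold

/-- a function which increases at unit speed in the direction `v` -/
structure Gph where
  φ : R4 → ℝ
  v : R4
  cont : Continuous φ
  sq : v 3 * v 3 = 1
  add : ∀ z (s : ℝ), φ (z + s • v) = φ z + s

namespace Gph

/-- the time coordinate -/
def std : Gph where
  φ z := z 3
  v := ![0, 0, 0, 1]
  cont := continuous_apply 3
  sq := by simp
  add z s := by simp

variable (G : Gph)

/-- the homeomorphism which straightens the graph -/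
def toE (z : R4) : E 4 :=
  !₂[G.φ z, G.v 3 * z 2 - G.v 2 * z 3, z 1 - G.v 1 * G.v 3 * z 3, z 0 - G.v 0 * G.v 3 * z 3]

/-- the point of the hyperplane `t = 0` with the given last three coordinates -/
def base (v : R4) (w : E 4) : R4 := ![w 3, w 2, v 3 * w 1, 0]

/-- the inverse of `toE` -/
def ofE (w : E 4) : R4 := base G.v w + (w 0 - G.φ (base G.v w)) • G.v

theorem toE_zero (z : R4) : G.toE z 0 = G.φ z := rfl

theorem phi_ofE (w : E 4) : G.φ (G.ofE w) = w 0 := by
  rw [ofE, G.add]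
  ring

theorem ofE_toE (z : R4) : G.ofE (G.toE z) = z := by
  have h := G.sq
  have e : base G.v (G.toE z) + (G.v 3 * z 3) • G.v = z := by
    funext j
    fin_cases j <;> simp [base, toE]
    · ring
    · ring
    · linear_combination z 2 * h
    · linear_combination z 3 * h
  have e1 : G.φ z = G.φ (base G.v (G.toE z)) + G.v 3 * z 3 := by rw [← G.add, e]
  rw [ofE, toE_zero, e1, add_sub_cancel_left, e]

theorem toE_ofE (w : E 4) : G.toE (G.ofE w) = w := by
  have h := G.sq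
  ext j
  fin_cases j
  · exact G.phi_ofE w
  · simp [toE, ofE, base]
    linear_combination w 1 * h
  · simp [toE, ofE, base]
    linear_combination -(w 0 - G.φ ![w 3, w 2, G.v 3 * w 1, 0]) * G.v 1 * h
  · simp [toE, ofE, base]
    linear_combination -(w 0 - G.φ ![w 3, w 2, G.v 3 * w 1, 0]) * G.v 0 * h

theorem toE_injective : Function.Injective G.toE := Function.LeftInverse.injective G.ofE_toE

theorem ofE_injective : Function.Injective G.ofE := Function.LeftInverse.injective G.toE_ofE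

theorem continuous_base (v : R4) : Continuous (base v) := by
  refine continuous_pi fun j => ?_
  fin_cases j <;> simp [base] <;> fun_prop

/-- the segment from `G` to a linear function -/
def mix (t : ℝ) : Gph where
  φ z := (1 - t) * G.φ z + t * (G.v 3 * z 3)
  v := G.v
  cont := (continuous_const.mul G.cont).add (by fun_prop)
  sq := G.sq
  add z s := by
    rw [G.add]
    simp only [Pi.add_apply, Pi.smul_apply, smul_eq_mul]
    linear_combination t * s * G.sq

theorem mix_zero : G.mix 0 = G := by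
  obtain ⟨φ, v, _, _, _⟩ := G
  simp [mix]

theorem continuous_toE_mix {X : Type} [TopologicalSpace X] {t : X → ℝ} {z : X → R4}
    (ht : Continuous t) (hz : Continuous z) : Continuous fun x => (G.mix (t x)).toE (z x) := by
  have h := G.cont
  refine (PiLp.continuous_toLp 2 _).comp (continuous_pi fun j => ?_)
  fin_cases j <;> simp [mix] <;> fun_prop

theorem continuous_ofE_mix {X : Type} [TopologicalSpace X] {t : X → ℝ} {w : X → E 4}
    (ht : Continuous t) (hw : Continuous w) : Continuous fun x => (G.mix (t x)).ofE (w x) := by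
  have h := G.cont
  have h1 := continuous_base G.v
  simp only [ofE, mix]
  fun_prop

theorem continuous_toE : Continuous G.toE := by
  have h := G.continuous_toE_mix (t := fun _ : R4 => 0) continuous_const continuous_id
  simpa only [mix_zero, id] using h

theorem continuous_ofE : Continuous G.ofE := by
  have h := G.continuous_ofE_mix (t := fun _ : E 4 => 0) continuous_const continuous_id
  simpa only [mix_zero, id] using h

/-- the matrix of `toE` for the linear function -/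
def mA (v : R4) : Matrix (Fin 4) (Fin 4) ℝ :=
  !![0, 0, 0, v 3; 0, 0, v 3, -v 2; 0, 1, 0, -(v 1 * v 3); 1, 0, 0, -(v 0 * v 3)]

/-- the matrix of `ofE` for the linear function -/
def mB (v : R4) : Matrix (Fin 4) (Fin 4) ℝ :=
  !![v 0, 0, 0, 1; v 1, 0, 1, 0; v 2, v 3, 0, 0; v 3, 0, 0, 0]

theorem det_mA : (mA G.v).det = 1 := by
  simp [mA, Matrix.det_succ_row_zero, Fin.sum_univ_succ, Fin.succAbove]
  linear_combination G.sq

theorem det_mB : (mB G.v).det = 1 := by
  simp [mB, Matrix.det_succ_row_zero, Fin.sum_univ_succ, Fin.succAbove]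
  linear_combination G.sq

theorem toE_mix_one (z : R4) : (G.mix 1).toE z = WithLp.toLp 2 ((mA G.v).mulVec z) := by
  ext j
  fin_cases j <;> simp [toE, mix, mA, Matrix.mulVec, dotProduct, Fin.sum_univ_four] <;> ring

theorem ofE_mix_one (w : E 4) : (G.mix 1).ofE w = (mB G.v).mulVec w.ofLp := by
  funext j
  fin_cases j <;> simp [ofE, base, mix, mB, Matrix.mulVec, dotProduct, Fin.sum_univ_four] <;> ring

/-- the changes of charts preserve the orientation -/
theorem posAt_trans (G' : Gph) {T : R4 ≃ₜ R4} (hT : Aff T) (x : E 4) :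
    PosAt (fun w => G'.toE (T (G.ofE w))) x := by
  obtain ⟨π, h1, c, h2⟩ := hT
  have hi : ∀ t, Function.Injective fun w => (G'.mix t).toE (T ((G.mix t).ofE w)) := fun t =>
    (G'.mix t).toE_injective.comp (T.injective.comp (G.mix t).ofE_injective)
  have hd : 0 < (mA G'.v * π.permMatrix ℝ * mB G.v).det := by
    rw [Matrix.det_mul, Matrix.det_mul, det_mA, det_mB, Matrix.det_permutation, h1]
    simp
  have e : ∀ y, T y = (π.permMatrix ℝ).mulVec y + c := fun y => by
    funext j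
    rw [h2, Matrix.permMatrix_mulVec]
    rfl
  refine posAt_iff.2 ⟨1, one_pos,
    (G'.continuous_toE.comp (T.continuous.comp G.continuous_ofE)).continuousOn,
    (G'.toE_injective.comp (T.injective.comp G.ofE_injective)).injOn, ?_⟩
  have c1 : Continuous fun p : unitInterval × sphere (0 : E 4) 1 => (p.1 : ℝ) := by fun_prop
  have c2 : Continuous fun p : unitInterval × sphere (0 : E 4) 1 => x + (1 : ℝ) • p.2.1 := by
    fun_prop
  refine (hty_mv hd).of_homotopy (K := fun p =>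
    (G'.mix p.1).toE (T ((G.mix p.1).ofE (x + (1 : ℝ) • p.2.1))) -
      (G'.mix p.1).toE (T ((G.mix p.1).ofE x))) ?_ (fun p k => ?_) (fun v => ?_) fun v => ?_
  · exact (G'.continuous_toE_mix c1 (T.continuous.comp (G.continuous_ofE_mix c1 c2))).sub
      (G'.continuous_toE_mix c1 (T.continuous.comp (G.continuous_ofE_mix c1 continuous_const)))
  · have := hi _ (sub_eq_zero.1 k)
    exact sph_ne p.2 (by simpa using this)
  · simp only [Icc.coe_zero, mix_zero]
  · simp only [Icc.coe_one, toE_mix_one, ofE_mix_one, e, one_smul, WithLp.ofLp_add,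
      Matrix.mulVec_add, Matrix.mulVec_mulVec, WithLp.toLp_add]
    rw [← Matrix.mul_assoc]
    change _ = WithLp.toLp 2 ((mA G'.v * π.permMatrix ℝ * mB G.v).mulVec v.1.ofLp)
    abel

/-- the same map, into the half space -/
def toH (z : R4) : H4 := (𝓡∂ 4).symm (G.toE z)

theorem continuous_toH : Continuous G.toH := (𝓡∂ 4).continuous_symm.comp G.continuous_toE

theorem toH_val {z : R4} (h : 0 ≤ G.φ z) : (G.toH z).1 = G.toE z :=
  (𝓡∂ 4).right_inv (by
    rw [range_modelWithCornersEuclideanHalfSpace]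
    exact h)

theorem toH_ofE (v : H4) : G.toH (G.ofE v.1) = v := by
  rw [toH, toE_ofE]
  exact (𝓡∂ 4).left_inv v

theorem le_ofE (v : H4) : 0 ≤ G.φ (G.ofE v.1) := by
  rw [phi_ofE]
  exact v.2

theorem std_toE (z : R4) (j : Fin 4) : std.toE z j = z (sg j) := by
  have e : sg 0 = 3 ∧ sg 1 = 2 ∧ sg 2 = 1 ∧ sg 3 = 0 := by decide
  fin_cases j <;> simp [toE, std, e.1, e.2.1, e.2.2.1, e.2.2.2]

end Gph

theorem not_nhds_of_half {U : Set R4} {y : R4} {b : ℝ} (h : y 3 = b)
    (h' : ∀ᶠ z in 𝓝 y, z ∈ U ↔ b ≤ z 3) : U ∉ 𝓝 y := by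
  intro hU
  have h1 : ∀ᶠ z in 𝓝 y, b ≤ z 3 := by
    filter_upwards [h', hU] with z e1 e2
    exact e1.1 e2
  have hc : Continuous fun s : ℝ => Function.update y 3 s := continuous_const.update 3 continuous_id
  have h3 : Function.update y 3 b = y := by rw [← h, Function.update_eq_self]
  have h2 : ∀ᶠ s in 𝓝 b, b ≤ Function.update y 3 s 3 := (hc.tendsto' b y h3).eventually h1
  simp only [Function.update_self] at h2
  have h4 : b ∈ interior (Ici b) := mem_interior_iff_mem_nhds.2 h2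
  rw [interior_Ici] at h4
  exact lt_irrefl b h4

/-! ### domains -/

/-- A saturated subset of the chart which is locally open or the region over a graph. -/
structure Dom where
  U : Set R4
  y0 : R4
  mem0 : y0 ∈ U
  sub : U ⊆ OO
  sat : ∀ i, ∀ y ∈ Qo (i, true), y ∈ U ↔ thR i y ∈ U
  loc : ∀ y ∈ U, U ∈ 𝓝 y ∨ ∃ (φ : R4 → ℝ) (v : R4), Continuous φ ∧ (v 3 = 1 ∨ v 3 = -1) ∧
    (∀ z (s : ℝ), φ (z + s • v) = φ z + s) ∧ φ y = 0 ∧ ∀ᶠ z in 𝓝 y, z ∈ U ↔ 0 ≤ φ z

namespace Dom

variable (D : Dom)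

/-- the manifold -/
def M : Type := {w : Wb // w ∈ Q '' D.U}

instance : TopologicalSpace D.M := inferInstanceAs (TopologicalSpace {w : Wb // w ∈ Q '' D.U})

/-- the inclusion in the base of the cover -/
def inc (P : D.M) : Wb := P.1

theorem isEmbedding_inc : IsEmbedding D.inc := IsEmbedding.subtypeVal

theorem continuous_inc : Continuous D.inc := continuous_subtype_val

theorem inc_injective : Function.Injective D.inc := Subtype.val_injective

variable {D} in
theorem mem_of_Q_eq {y y' : R4} (hy : y ∈ D.U) (h : Q y = Q y') : y' ∈ D.U := by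
  rcases Q_eq.1 h with rfl | ⟨i, k1, rfl⟩ | ⟨i, k1, rfl⟩
  · exact hy
  · exact (D.sat i y k1).1 hy
  · exact (D.sat i y' k1).2 hy

theorem preimage_image : Q ⁻¹' (Q '' D.U) = D.U :=
  Subset.antisymm (fun _ ⟨_, hy, h⟩ => mem_of_Q_eq hy h) (subset_preimage_image _ _)

open Classical in
/-- the point of the manifold with coordinates `y` (meaningful for `y ∈ U`) -/
def q (y : R4) : D.M := if h : y ∈ D.U then ⟨Q y, y, h, rfl⟩ else ⟨Q D.y0, D.y0, D.mem0, rfl⟩

variable {D}

theorem inc_q {y : R4} (h : y ∈ D.U) : D.inc (D.q y) = Q y := by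
  have e : D.q y = ⟨Q y, y, h, rfl⟩ := dif_pos h
  rw [e]
  rfl

theorem exists_q (P : D.M) : ∃ y ∈ D.U, D.q y = P := by
  obtain ⟨_, y, hy, rfl⟩ := P
  exact ⟨y, hy, D.inc_injective (inc_q hy)⟩

theorem q_eq_iff_Q {y y' : R4} (h : y ∈ D.U) (h' : y' ∈ D.U) : D.q y = D.q y' ↔ Q y = Q y' := by
  rw [← D.inc_injective.eq_iff, inc_q h, inc_q h']

theorem q_eq {y y' : R4} (h : y ∈ D.U) (h' : y' ∈ D.U) : D.q y = D.q y' ↔
    y = y' ∨ (∃ i, y ∈ Qo (i, true) ∧ y' = thR i y) ∨ (∃ i, y' ∈ Qo (i, true) ∧ y = thR i y') :=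
  (q_eq_iff_Q h h').trans Q_eq

theorem q_glue {i : Fin 3} {y : R4} (h : y ∈ D.U) (hy : y ∈ Qo (i, true)) :
    D.q (thR i y) = D.q y :=
  (q_eq_iff_Q ((D.sat i y hy).1 h) h).2 (Q_glue hy)

theorem continuousOn_q : ContinuousOn D.q D.U := by
  rw [D.isEmbedding_inc.continuousOn_iff]
  exact continuous_Q.continuousOn.congr fun y hy => inc_q hy

theorem continuous_q_comp {X : Type*} [TopologicalSpace X] {F : X → R4} (hF : Continuous F)
    (h : ∀ x, F x ∈ D.U) : Continuous fun x => D.q (F x) :=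
  continuousOn_q.comp_continuous hF h

theorem image_q (V : Set R4) : D.q '' (V ∩ D.U) = D.inc ⁻¹' (Q '' V) := by
  ext P
  constructor
  · rintro ⟨y, ⟨h1, h2⟩, rfl⟩
    exact ⟨y, h1, (inc_q h2).symm⟩
  · rintro ⟨y, h1, h2⟩
    obtain ⟨z, hz, rfl⟩ := exists_q P
    rw [inc_q hz] at h2
    have h3 := mem_of_Q_eq hz h2.symm
    exact ⟨y, ⟨h1, h3⟩, (q_eq_iff_Q h3 hz).2 h2⟩

theorem isOpen_image_q {V : Set R4} (hV : IsOpen V) : IsOpen (D.q '' (V ∩ D.U)) := by
  rw [image_q]
  exact (isOpenMap_Q V hV).preimage D.continuous_inc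

theorem image_q_mem_nhds {y : R4} (hy : y ∈ D.U) {V : Set R4} (hV : V ∈ 𝓝 y) :
    D.q '' (V ∩ D.U) ∈ 𝓝 (D.q y) := by
  obtain ⟨W, h1, h2, h3⟩ := _root_.mem_nhds_iff.1 hV
  exact mem_of_superset ((isOpen_image_q h2).mem_nhds ⟨y, ⟨h3, hy⟩, rfl⟩)
    (image_mono (inter_subset_inter_left _ h1))

variable (D) in
theorem isOpenQuotientMap_q : IsOpenQuotientMap fun y : D.U => D.q y.1 where
  surjective P := by
    obtain ⟨y, hy, rfl⟩ := exists_q P
    exact ⟨⟨y, hy⟩, rfl⟩
  continuous := continuous_q_comp continuous_subtype_val fun y => y.2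
  isOpenMap := by
    intro W hW
    obtain ⟨V, hV, rfl⟩ := isOpen_induced_iff.1 hW
    have e : (fun y : D.U => D.q y.1) '' (Subtype.val ⁻¹' V) = D.q '' (V ∩ D.U) := by
      rw [← image_image D.q Subtype.val, Subtype.image_preimage_coe, inter_comm]
    rw [e]
    exact isOpen_image_q hV

instance : T2Space D.M := by
  rw [t2Space_iff_of_isOpenQuotientMap D.isOpenQuotientMap_q]
  have h := isClosed_rel (F := fun y : D.U => y.1) continuous_subtype_val fun y => D.sub y.2
  convert h using 2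
  ext p
  exact q_eq_iff_Q p.1.2 p.2.2

instance : SecondCountableTopology D.M :=
  D.isOpenQuotientMap_q.isQuotientMap.secondCountableTopology D.isOpenQuotientMap_q.isOpenMap

/-- interior points of the domain are matched by the gluing -/
theorem nhds_of_Q_eq {y y' : R4} (hy : D.U ∈ 𝓝 y) (h : Q y = Q y') : D.U ∈ 𝓝 y' := by
  have h1 : Q '' D.U ∈ 𝓝 (Q y') := h ▸ isOpenMap_Q.image_mem_nhds hy
  have h2 := continuous_Q.continuousAt.preimage_mem_nhds h1
  rwa [preimage_image] at h2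

/-! ### the charts -/

theorem exists_gph (y : D.U) : ∃ G : Gph, (D.U ∈ 𝓝 y.1 → G = Gph.std) ∧
    (D.U ∉ 𝓝 y.1 → G.φ y.1 = 0) ∧ ∀ᶠ z in 𝓝 y.1, z ∈ D.U ↔ 0 ≤ G.φ z := by
  by_cases h : D.U ∈ 𝓝 y.1
  · exact ⟨Gph.std, fun _ => rfl, fun k => absurd h k,
      mem_of_superset h fun z hz => iff_of_true hz (D.sub hz).2.1.le⟩
  · obtain ⟨φ, v, h1, h2, h3, h4, h5⟩ := (D.loc y.1 y.2).resolve_left h
    exact ⟨⟨φ, v, h1, by rcases h2 with e | e <;> simp [e], h3⟩, fun k => absurd k h,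
      fun _ => h4, h5⟩

/-- the model of the domain at `y` -/
def gp (y : D.U) : Gph := (exists_gph y).choose

theorem gp_of_nhds (y : D.U) (h : D.U ∈ 𝓝 y.1) : gp y = Gph.std := (exists_gph y).choose_spec.1 h

theorem gp_of_not (y : D.U) (h : D.U ∉ 𝓝 y.1) : (gp y).φ y.1 = 0 :=
  (exists_gph y).choose_spec.2.1 h

theorem exists_rad (y : D.U) : ∃ r > 0, r ≤ 1 / 2 ∧
    ∀ z ∈ ball y.1 r, z ∈ D.U ↔ 0 ≤ (gp y).φ z := by
  obtain ⟨r, hr, h1⟩ := Metric.eventually_nhds_iff_ball.1 (exists_gph y).choose_spec.2.2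
  exact ⟨min r (1 / 2), lt_min hr (by norm_num), min_le_right _ _,
    fun z hz => h1 z (ball_subset_ball (min_le_left _ _) hz)⟩

/-- the radius of the chart at `y` -/
def rad (y : D.U) : ℝ := (exists_rad y).choose

theorem rad_pos (y : D.U) : 0 < rad y := (exists_rad y).choose_spec.1

theorem rad_le (y : D.U) : rad y ≤ 1 / 2 := (exists_rad y).choose_spec.2.1

theorem mem_iff_lev (y : D.U) {z : R4} (h : z ∈ ball y.1 (rad y)) : z ∈ D.U ↔ 0 ≤ (gp y).φ z :=
  (exists_rad y).choose_spec.2.2 z h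

theorem min_rad (y : D.U) : min (rad y) (1 / 2) = rad y := min_eq_left (rad_le y)

theorem Eb_symm_q (y : D.U) {z : R4} (h : z ∈ ball y.1 (rad y)) (hz : z ∈ D.U) :
    (Eb y.1 (rad y)).symm (D.inc (D.q z)) = z := by
  rw [inc_q hz]
  exact Eb_symm (by rwa [min_rad])

/-- the chart at `y`: the inverse of `q` on a small ball, followed by `toE` -/
def ch (y : D.U) : OpenPartialHomeomorph D.M H4 where
  toFun P := (gp y).toH ((Eb y.1 (rad y)).symm (D.inc P))
  invFun v := D.q ((gp y).ofE v.1)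
  source := D.q '' (ball y.1 (rad y) ∩ D.U)
  target := {v | (gp y).ofE v.1 ∈ ball y.1 (rad y)}
  map_source' := by
    rintro _ ⟨z, ⟨h1, h2⟩, rfl⟩
    change (gp y).ofE ((gp y).toH _).1 ∈ ball y.1 (rad y)
    rwa [Eb_symm_q y h1 h2, Gph.toH_val _ ((mem_iff_lev y h1).1 h2), Gph.ofE_toE]
  map_target' v hv := ⟨_, ⟨hv, (mem_iff_lev y hv).2 (Gph.le_ofE _ v)⟩, rfl⟩
  left_inv' := by
    rintro _ ⟨z, ⟨h1, h2⟩, rfl⟩
    rw [Eb_symm_q y h1 h2, Gph.toH_val _ ((mem_iff_lev y h1).1 h2), Gph.ofE_toE]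
  right_inv' v hv := by
    rw [Eb_symm_q y hv ((mem_iff_lev y hv).2 (Gph.le_ofE _ v)), Gph.toH_ofE]
  open_source := isOpen_image_q isOpen_ball
  open_target := isOpen_ball.preimage ((gp y).continuous_ofE.comp continuous_subtype_val)
  continuousOn_toFun := by
    refine (gp y).continuous_toH.comp_continuousOn
      ((Eb y.1 (rad y)).continuousOn_symm.comp D.continuous_inc.continuousOn ?_)
    rintro _ ⟨z, ⟨h1, h2⟩, rfl⟩
    rw [Eb_target, min_rad, inc_q h2]
    exact ⟨z, h1, rfl⟩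
  continuousOn_invFun := continuousOn_q.comp
    ((gp y).continuous_ofE.comp continuous_subtype_val).continuousOn
    fun v hv => (mem_iff_lev y hv).2 (Gph.le_ofE _ v)

theorem ch_source (y : D.U) : (ch y).source = D.q '' (ball y.1 (rad y) ∩ D.U) := rfl

theorem ch_target (y : D.U) :
    (ch y).target = {v | (gp y).ofE v.1 ∈ ball y.1 (rad y)} := rfl

theorem ch_symm_apply (y : D.U) (v : H4) : (ch y).symm v = D.q ((gp y).ofE v.1) := rfl

theorem mem_ch_source (y : D.U) : D.q y.1 ∈ (ch y).source :=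
  ⟨y.1, ⟨mem_ball_self (rad_pos y), y.2⟩, rfl⟩

theorem ch_q (y : D.U) {z : R4} (h : z ∈ ball y.1 (rad y)) (hz : z ∈ D.U) :
    (ch y (D.q z)).1 = (gp y).toE z := by
  change ((gp y).toH _).1 = _
  rw [Eb_symm_q y h hz, Gph.toH_val _ ((mem_iff_lev y h).1 hz)]

/-- The chart at `y` seen from any point `z` of the domain over its source. -/
theorem ch_q_local (y : D.U) {z : R4} (hz : z ∈ D.U) (h : D.q z ∈ (ch y).source) :
    ∃ T : R4 ≃ₜ R4, Aff T ∧ T z ∈ ball y.1 (rad y) ∧ ∀ᶠ w in 𝓝 z, w ∈ D.U →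
      D.q w ∈ (ch y).source ∧ (ch y (D.q w)).1 = (gp y).toE (T w) := by
  obtain ⟨z', ⟨h1, h2⟩, h3⟩ := h
  obtain ⟨T, k1, k2, k3⟩ := Q_local ((q_eq_iff_Q hz h2).1 h3.symm)
  refine ⟨T, k1, k2 ▸ h1, ?_⟩
  have k4 : ∀ᶠ w in 𝓝 z, T w ∈ ball y.1 (rad y) :=
    T.continuous.continuousAt.preimage_mem_nhds (isOpen_ball.mem_nhds (k2 ▸ h1))
  filter_upwards [k3, k4] with w e1 e2 hw
  have e3 : T w ∈ D.U := mem_of_Q_eq hw e1.symm
  have e4 : D.q w = D.q (T w) := (q_eq_iff_Q hw e3).2 e1.symm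
  rw [e4]
  exact ⟨⟨_, ⟨e2, e3⟩, rfl⟩, ch_q y e2 e3⟩

/-- near `y` itself -/
theorem ch_q_self (y : D.U) : ∀ᶠ w in 𝓝 y.1, w ∈ D.U →
    D.q w ∈ (ch y).source ∧ (ch y (D.q w)).1 = (gp y).toE w :=
  mem_of_superset (ball_mem_nhds _ (rad_pos y)) fun w hw hU => ⟨⟨w, ⟨hw, hU⟩, rfl⟩, ch_q y hw hU⟩

/-- coordinates of a point of the manifold -/
def rep (P : D.M) : D.U := ⟨(exists_q P).choose, (exists_q P).choose_spec.1⟩

theorem q_rep (P : D.M) : D.q (rep P).1 = P := (exists_q P).choose_spec.2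

instance : ChartedSpace H4 D.M where
  atlas := range ch
  chartAt P := ch (rep P)
  mem_chart_source P := by
    have h := mem_ch_source (rep P)
    rwa [q_rep] at h
  chart_mem_atlas P := ⟨_, rfl⟩

theorem atlas_eq : atlas H4 D.M = range ch := rfl

theorem ch_mem_atlas (y : D.U) : ch y ∈ atlas H4 D.M := ⟨y, rfl⟩

theorem chartAt_eq (P : D.M) : chartAt H4 P = ch (rep P) := rfl

variable (D) in
theorem isOriented : IsOriented D.M := by
  rintro _ ⟨y, rfl⟩ _ ⟨y', rfl⟩ x hx h0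
  have h1 := (ch y).map_source hx.1
  have h3 : ∀ w ∈ (ch y).target, (gp y).ofE w.1 ∈ D.U := fun w hw =>
    (mem_iff_lev y hw).2 (Gph.le_ofE _ w)
  have h2 : D.q ((gp y).ofE (ch y x).1) ∈ (ch y').source := by
    rw [← ch_symm_apply, (ch y).left_inv hx.1]
    exact hx.2
  obtain ⟨T, k1, -, k3⟩ := ch_q_local y' (h3 _ h1) h2
  refine ((gp y).posAt_trans (gp y') k1 _).congr ?_
  have h4 : ∀ᶠ w in 𝓝 (ch y x).1, 0 < w 0 :=
    continuousAt_const.eventually_lt (by fun_prop : Continuous fun w : E 4 => w 0).continuousAt h0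
  have h5 : ∀ᶠ w in 𝓝 (ch y x).1, (gp y).ofE w ∈ ball y.1 (rad y) :=
    (gp y).continuous_ofE.continuousAt.eventually (isOpen_ball.mem_nhds h1)
  filter_upwards [(gp y).continuous_ofE.continuousAt.eventually k3, h4, h5] with w e1 e2 e3
  have e4 : ((𝓡∂ 4).symm w).1 = w := (𝓡∂ 4).right_inv (by
    rw [range_modelWithCornersEuclideanHalfSpace]
    exact e2.le)
  rw [ch_symm_apply, e4]
  exact (e1 ((mem_iff_lev y e3).2 (by rw [Gph.phi_ofE]; exact e2.le))).2

/-! ### the boundary -/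

theorem isBoundaryPoint_q {y : R4} (hy : y ∈ D.U) :
    (𝓡∂ 4).IsBoundaryPoint (D.q y) ↔ D.U ∉ 𝓝 y := by
  have e : Q (rep (D.q y)).1 = Q y := (q_eq_iff_Q (rep _).2 hy).1 (q_rep _)
  have e1 : (ch (rep (D.q y)) (D.q y)).1 0 = (gp (rep (D.q y))).φ (rep (D.q y)).1 := by
    rw [← Gph.toE_zero, ← ch_q _ (mem_ball_self (rad_pos _)) (rep _).2, q_rep]
  rw [ModelWithCorners.isBoundaryPoint_iff, frontier_range_modelWithCornersEuclideanHalfSpace]
  change 0 = (ch (rep (D.q y)) (D.q y)).1 0 ↔ _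
  rw [e1]
  by_cases h : D.U ∈ 𝓝 y
  · rw [gp_of_nhds _ (nhds_of_Q_eq h e.symm)]
    exact iff_of_false (D.sub (rep (D.q y)).2).2.1.ne (not_not.2 h)
  · have h' : D.U ∉ 𝓝 (rep (D.q y)).1 := fun k => h (nhds_of_Q_eq k e)
    rw [gp_of_not _ h']
    exact iff_of_true rfl h

theorem isInteriorPoint_q {y : R4} (hy : y ∈ D.U) :
    (𝓡∂ 4).IsInteriorPoint (D.q y) ↔ D.U ∈ 𝓝 y := by
  rw [ModelWithCorners.isInteriorPoint_iff_not_isBoundaryPoint, isBoundaryPoint_q hy, not_not]

theorem q_mem_boundary {y : R4} (hy : y ∈ D.U) :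
    D.q y ∈ (𝓡∂ 4).boundary D.M ↔ D.U ∉ 𝓝 y := isBoundaryPoint_q hy

theorem q_mem_interior {y : R4} (hy : y ∈ D.U) :
    D.q y ∈ (𝓡∂ 4).interior D.M ↔ D.U ∈ 𝓝 y := isInteriorPoint_q hy

/-! ### local homeomorphisms into the interior -/

/-- `q` on a small ball round an interior point -/
def Ei (y : D.U) : OpenPartialHomeomorph R4 D.M where
  toFun := D.q
  invFun P := (Eb y.1 (rad y)).symm (D.inc P)
  source := ball y.1 (rad y) ∩ interior D.U
  target := D.q '' (ball y.1 (rad y) ∩ interior D.U)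
  map_source' z hz := ⟨z, hz, rfl⟩
  map_target' := by
    rintro _ ⟨z, hz, rfl⟩
    rwa [Eb_symm_q y hz.1 (interior_subset hz.2)]
  left_inv' z hz := Eb_symm_q y hz.1 (interior_subset hz.2)
  right_inv' := by
    rintro _ ⟨z, hz, rfl⟩
    rw [Eb_symm_q y hz.1 (interior_subset hz.2)]
  open_source := isOpen_ball.inter isOpen_interior
  open_target := by
    have h1 := isOpen_image_q (D := D) ((isOpen_ball (x := y.1) (ε := rad y)).inter
      (isOpen_interior (s := D.U)))
    rwa [inter_assoc, inter_eq_left.2 interior_subset] at h1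
  continuousOn_toFun := continuousOn_q.mono fun z hz => interior_subset hz.2
  continuousOn_invFun := by
    refine (Eb y.1 (rad y)).continuousOn_symm.comp D.continuous_inc.continuousOn ?_
    rintro _ ⟨z, hz, rfl⟩
    rw [Eb_target, min_rad, inc_q (interior_subset hz.2)]
    exact ⟨z, hz.1, rfl⟩

theorem isLocalHomeomorphOn_q : IsLocalHomeomorphOn D.q (interior D.U) := fun y hy =>
  ⟨Ei ⟨y, interior_subset hy⟩,
    ⟨mem_ball_self (rad_pos ⟨y, interior_subset hy⟩), hy⟩, rfl⟩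

theorem isLocalHomeomorph_q_comp {X : Type*} [TopologicalSpace X] {F : X → R4}
    (hF : IsLocalHomeomorph F) (h : ∀ x, D.U ∈ 𝓝 (F x)) :
    IsLocalHomeomorph fun x => D.q (F x) :=
  isLocalHomeomorph_iff_isLocalHomeomorphOn_univ.2
    (isLocalHomeomorphOn_q.comp (isLocalHomeomorph_iff_isLocalHomeomorphOn_univ.1 hF)
      fun x _ => mem_interior_iff_mem_nhds.2 (h x))

/-! ### the component of the base point -/

instance : LocallyPathConnectedSpace D.M := ChartedSpace.locallyPathConnectedSpace H4 D.M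

theorem comp_aux {y : R4} (hy : y ∈ D.U) (h : Joined (D.q D.y0) (D.q y)) :
    ∀ᶠ z in 𝓝 y, (z ∈ D.U ∧ Joined (D.q D.y0) (D.q z)) ↔ z ∈ D.U := by
  have h1 : pathComponent (D.q D.y0) ∈ 𝓝 (D.q y) := (IsOpen.pathComponent _).mem_nhds h
  have h2 := (continuousOn_q y hy).preimage_mem_nhdsWithin h1
  filter_upwards [eventually_nhdsWithin_iff.1 h2] with z hz
  exact ⟨fun k => k.1, fun k => ⟨k, hz k⟩⟩

variable (D) in
/-- the part of the domain over the path component of the base point -/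
def comp : Dom where
  U := {y | y ∈ D.U ∧ Joined (D.q D.y0) (D.q y)}
  y0 := D.y0
  mem0 := ⟨D.mem0, Joined.refl _⟩
  sub y hy := D.sub hy.1
  sat i y hy := ⟨fun h => ⟨(D.sat i y hy).1 h.1, by rw [q_glue h.1 hy]; exact h.2⟩, fun h => by
    have h1 := (D.sat i y hy).2 h.1
    exact ⟨h1, by rw [← q_glue h1 hy]; exact h.2⟩⟩
  loc y hy := by
    have h := comp_aux hy.1 hy.2
    refine (D.loc y hy.1).imp (fun k => ?_) fun ⟨φ, v, h1, h2, h3, h4, h5⟩ =>
      ⟨φ, v, h1, h2, h3, h4, ?_⟩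
    · filter_upwards [h, k] with z e1 e2
      exact e1.2 e2
    · filter_upwards [h, h5] with z e1 e2
      exact e1.trans e2

theorem comp_sub : D.comp.U ⊆ D.U := fun _ h => h.1

theorem comp_y0 : D.comp.y0 = D.y0 := rfl

theorem comp_eventually {y : R4} (hy : y ∈ D.comp.U) : ∀ᶠ z in 𝓝 y, z ∈ D.comp.U ↔ z ∈ D.U :=
  comp_aux hy.1 hy.2

theorem comp_nhds {y : R4} (hy : y ∈ D.comp.U) : D.comp.U ∈ 𝓝 y ↔ D.U ∈ 𝓝 y := by
  refine ⟨fun h => mem_of_superset h comp_sub, fun h => ?_⟩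
  filter_upwards [comp_eventually hy, h] with z e1 e2
  exact e1.2 e2

theorem mem_comp_of_joinedIn {y z : R4} (hy : y ∈ D.comp.U) (h : JoinedIn D.U y z) :
    z ∈ D.comp.U :=
  ⟨h.target_mem, hy.2.trans (h.joined_subtype.map D.isOpenQuotientMap_q.continuous)⟩

/-- a path connected subset of the domain which meets the component lies in it -/
theorem subset_comp {A : Set R4} (hA : IsPathConnected A) (hU : A ⊆ D.U) {y : R4} (h : y ∈ A)
    (hy : y ∈ D.comp.U) : A ⊆ D.comp.U := fun z hz =>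
  mem_comp_of_joinedIn hy ((hA.joinedIn y h z hz).mono hU)

theorem mem_comp_of_map {X : Type*} [TopologicalSpace X] [PathConnectedSpace X] {F : X → R4}
    (hF : Continuous F) (hU : ∀ x, F x ∈ D.U) {x0 : X} (h0 : F x0 ∈ D.comp.U) (x : X) :
    F x ∈ D.comp.U :=
  subset_comp (isPathConnected_range hF) (range_subset_iff.2 hU) ⟨x0, rfl⟩ h0 ⟨x, rfl⟩

theorem image_comp : Q '' D.comp.U = D.inc '' pathComponent (D.q D.y0) := by
  ext w
  constructor
  · rintro ⟨y, hy, rfl⟩
    exact ⟨D.q y, hy.2, inc_q hy.1⟩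
  · rintro ⟨P, hP, rfl⟩
    obtain ⟨y, hy, rfl⟩ := exists_q P
    exact ⟨y, ⟨hy, hP⟩, (inc_q hy).symm⟩

instance : PathConnectedSpace D.comp.M := by
  have h : IsPathConnected (Q '' D.comp.U) := by
    rw [image_comp]
    exact isPathConnected_pathComponent.image D.continuous_inc
  exact isPathConnected_iff_pathConnectedSpace.1 h

theorem compactSpace {K : Set R4} (hK : IsCompact K) (h : Q '' D.U = Q '' K) :
    CompactSpace D.M := by
  have h1 : IsCompact (Q '' D.U) := h ▸ hK.image continuous_Q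
  exact isCompact_iff_compactSpace.1 h1

theorem compact_comp {K : Set R4} (hK : IsCompact K) (h : Q '' D.U = Q '' K) :
    CompactSpace D.comp.M := by
  have := compactSpace hK h
  have h1 : IsCompact (Q '' D.comp.U) := by
    rw [image_comp]
    exact (IsClopen.pathComponent _).isClosed.isCompact.image D.continuous_inc
  exact isCompact_iff_compactSpace.1 h1

/-! ### transverse points in affine position -/

/-- an affine frame of positive determinant at an interior point is an oriented chart -/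
theorem frame {y : R4} (hy : D.U ∈ 𝓝 y) {v : Fin 4 → R4} (h : 0 < (Matrix.of v).det) :
    IsLocalHomeomorphOn (fun w => D.q (fr y v w)) {0} ∧ ∃ e ∈ atlas H4 D.M,
      D.q (fr y v 0) ∈ e.source ∧ PosAt (fun w => (e (D.q (fr y v w))).1) 0 := by
  have hl := isLocalHomeomorph_fr y h.ne'
  have hU : y ∈ D.U := mem_of_mem_nhds hy
  refine ⟨isLocalHomeomorphOn_q.comp hl.isLocalHomeomorphOn ?_, ch ⟨y, hU⟩, ch_mem_atlas _, ?_, ?_⟩
  · rintro _ rfl
    rw [fr_zero]
    exact mem_interior_iff_mem_nhds.2 hy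
  · rw [fr_zero]
    exact mem_ch_source ⟨y, hU⟩
  · have t : Tendsto (fr y v) (𝓝 0) (𝓝 y) := hl.continuous.tendsto' _ _ (fr_zero y v)
    refine posAt_matrix (A := ((Matrix.of v).transpose).submatrix sg id)
      (c := fun i => y (sg i)) ?_ ?_
    · rw [Matrix.det_permute, sign_sg, Matrix.det_transpose]
      simpa using h
    · filter_upwards [t.eventually (ch_q_self ⟨y, hU⟩), t.eventually hy] with w e1 e2 i
      rw [(e1 e2).2, gp_of_nhds _ hy, Gph.std_toE, fr_apply]
      simp [mul_comm, add_comm]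

variable {S T : Type} [TopologicalSpace S] [TopologicalSpace T] {A : Model S} {B : Model T}
  {a : S → D.M} {b : T → D.M} {p : S} {p' : T} {ε : ℤ} {α : E 2 → S} {β : E 2 → T}

/-- Two sheets which are affine planes through an interior point of the domain. -/
theorem cross (hε : ε = 1 ∨ ε = -1) (hα : α 0 = p ∧ IsLocalHomeomorphOn α {0} ∧ A.pos α)
    (hβ : β 0 = p' ∧ IsLocalHomeomorphOn β {0} ∧ B.pos β) {y : R4} (hy : D.U ∈ 𝓝 y)
    {v0 v1 v2 v3 : R4} (hdet : 0 < (ε : ℝ) * (Matrix.of ![v0, v1, v2, v3]).det)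
    (ha : ∀ᶠ u in 𝓝 (0 : E 2), a (α u) = D.q (y + u 0 • v0 + u 1 • v1))
    (hb : ∀ᶠ u in 𝓝 (0 : E 2), b (β u) = D.q (y + u 0 • v2 + u 1 • v3)) :
    Cross A B a b p p' ε := by
  have e : Matrix.of ![v0, v1, (ε : ℝ) • v2, v3] =
      (Matrix.of ![v0, v1, v2, v3]).updateRow 2 ((ε : ℝ) • (Matrix.of ![v0, v1, v2, v3]) 2) := by
    ext i j
    fin_cases i <;> simp [Matrix.updateRow_apply]
  have h1 : 0 < (Matrix.of ![v0, v1, (ε : ℝ) • v2, v3]).det := by
    rwa [e, Matrix.det_updateRow_smul, Matrix.updateRow_eq_self]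
  have h2 : (ε : ℝ) * ε = 1 := by rcases hε with rfl | rfl <;> simp
  refine ⟨hε, α, β, fun w => D.q (fr y ![v0, v1, (ε : ℝ) • v2, v3] w), hα, hβ, frame hy h1,
    ha.mono fun u hu => hu.trans (congrArg D.q ?_), hb.mono fun u hu => hu.trans (congrArg D.q ?_)⟩
  · simp [fr, Fin.sum_univ_four, add_assoc]
  · simp [fr, Fin.sum_univ_four, add_assoc, smul_smul, mul_right_comm, h2]

/-- a plane through the glued point, seen from the first cube -/
theorem q_glue_plane {i : Fin 3} {y : R4} (hy : D.U ∈ 𝓝 y) (hi : y ∈ Qo (i, true)) (v w : R4) :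
    ∀ᶠ u in 𝓝 (0 : E 2), D.q (thR i y + u 0 • v + u 1 • w) =
      D.q (y + u 0 • v ∘ ppi i + u 1 • w ∘ ppi i) := by
  have t : Tendsto (fun u : E 2 => y + u 0 • v ∘ ppi i + u 1 • w ∘ ppi i) (𝓝 0) (𝓝 y) :=
    (by fun_prop : Continuous fun u : E 2 => y + u 0 • v ∘ ppi i + u 1 • w ∘ ppi i).tendsto' _ _
      (by simp)
  filter_upwards [t.eventually hy, t.eventually ((isOpen_Qo _).mem_nhds hi)] with u e1 e2
  rw [← q_glue e1 e2, add_assoc, add_assoc, ← Mf.Dom.thR_add]
  rfl

/-- The first sheet through `y` in the first cube, the second one through the glued point. -/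
theorem cross_glue (hε : ε = 1 ∨ ε = -1) (hα : α 0 = p ∧ IsLocalHomeomorphOn α {0} ∧ A.pos α)
    (hβ : β 0 = p' ∧ IsLocalHomeomorphOn β {0} ∧ B.pos β) {i : Fin 3} {y : R4} (hy : D.U ∈ 𝓝 y)
    (hi : y ∈ Qo (i, true)) {v0 v1 v2 v3 : R4}
    (hdet : 0 < (ε : ℝ) * (Matrix.of ![v0, v1, v2 ∘ ppi i, v3 ∘ ppi i]).det)
    (ha : ∀ᶠ u in 𝓝 (0 : E 2), a (α u) = D.q (y + u 0 • v0 + u 1 • v1))
    (hb : ∀ᶠ u in 𝓝 (0 : E 2), b (β u) = D.q (thR i y + u 0 • v2 + u 1 • v3)) :
    Cross A B a b p p' ε := by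
  refine cross hε hα hβ hy hdet ha ?_
  filter_upwards [hb, q_glue_plane hy hi v2 v3] with u e1 e2
  exact e1.trans e2

/-- The second sheet through `y` in the first cube, the first one through the glued point. -/
theorem cross_glue' (hε : ε = 1 ∨ ε = -1) (hα : α 0 = p ∧ IsLocalHomeomorphOn α {0} ∧ A.pos α)
    (hβ : β 0 = p' ∧ IsLocalHomeomorphOn β {0} ∧ B.pos β) {i : Fin 3} {y : R4} (hy : D.U ∈ 𝓝 y)
    (hi : y ∈ Qo (i, true)) {v0 v1 v2 v3 : R4}
    (hdet : 0 < (ε : ℝ) * (Matrix.of ![v0 ∘ ppi i, v1 ∘ ppi i, v2, v3]).det)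
    (ha : ∀ᶠ u in 𝓝 (0 : E 2), a (α u) = D.q (thR i y + u 0 • v0 + u 1 • v1))
    (hb : ∀ᶠ u in 𝓝 (0 : E 2), b (β u) = D.q (y + u 0 • v2 + u 1 • v3)) :
    Cross A B a b p p' ε := by
  refine cross hε hα hβ hy hdet ?_ hb
  filter_upwards [ha, q_glue_plane hy hi v0 v1] with u e1 e2
  exact e1.trans e2

end Dom

end Vale.Agent.N215.Mc
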