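import Vale.Agent.N215.Main
import Vale.Agent.N215C.Mfd

/-!
# P215: disc embedding data in any domain which contains the disc, the sphere and the homotopies
-/

noncomputable section

namespace Vale.Agent.N215.Mc

open Set Topology Filter P215Z Shell P215.H788
open scoped Manifold

/-- what is needed of the domain -/
structure Good (D : Dom) : Prop where
  ok : ∀ B, okU B = true → ∀ y ∈ box B, y ∈ D.U → box B ⊆ D.U
  ug : Ug ⊆ D.U
  wf : ∀ y ∈ Wf, 5 / 4 ≤ y 3 → y ∈ D.U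
  low : ∀ y ∈ Wf, 1 < y 3 → y 3 < 5 / 4 → y ∉ D.U
  aa : ∀ y ∈ ND.AA, y ∈ D.U → ∃ z : Circ, y = c0 z.1

theorem Good.comp {D : Dom} (H : Good D) (h0 : D.y0 = yb) : Good D.comp := by
  have hb : yb ∈ D.comp.U := h0 ▸ D.comp.mem0
  refine ⟨fun B hB y hy hD => Dom.subset_comp ((convex_box B).isPathConnected ⟨y, hy⟩)
    (H.ok B hB y hy (Dom.comp_sub hD)) hy hD, ?_, fun y h1 h2 => ?_,
    fun y h1 h2 h3 k => H.low y h1 h2 h3 (Dom.comp_sub k),
    fun y h1 k => H.aa y h1 (Dom.comp_sub k)⟩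
  · rw [← range_GG]
    rintro _ ⟨z, rfl⟩
    exact Dom.mem_comp_of_map continuous_GG (fun z => H.ug (GG_mem z)) (x0 := (gX, 0))
      (by rw [GG_gX]; exact hb) z
  · obtain ⟨z, rfl⟩ : y ∈ range FF := range_FF ▸ ⟨h1, h2⟩
    exact Dom.mem_comp_of_map continuous_FF (fun z => H.wf _ (FF_mem z) (le_FF z)) (x0 := (fX, 0))
      (by rw [FF_fX]; exact hb) z

theorem PP_In {x z t : ℝ} (h0 : 9 ≤ x) (h1 : x ≤ 12) (hz : 15 ≤ z ∧ z ≤ 22) (h2 : 1 / 8 ≤ t)
    (h3 : t ≤ 23 / 8) : PP x z t ∈ box bIn := by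
  rw [mem_box_iff]
  simp only [bIn, PP, Matrix.cons_val]
  push_cast
  refine ⟨⟨?_, ?_⟩, ⟨?_, ?_⟩, ⟨?_, ?_⟩, ?_, ?_⟩ <;> linarith [hz.1, hz.2]

section Pair

variable (D : Dom)

/-- the projection of the domain to the manifold -/
def ph : C(D.U, D.M) := ⟨fun y => D.q y.1, D.isOpenQuotientMap_q.continuous⟩

variable {D} {x : D.M}

/-- a segment in the first cube has the value of the segment glued to it -/
theorem ev_glue (hI : box bIn ⊆ D.U) {u t u' t' : ℝ} (hu : 73 / 8 ≤ u ∧ u ≤ 95 / 8)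
    (ht : 1 / 8 ≤ t ∧ t ≤ 23 / 8) (hu' : 73 / 8 ≤ u' ∧ u' ≤ 95 / 8)
    (ht' : 1 / 8 ≤ t' ∧ t' ≤ 23 / 8) :
    ev x (ph D) (PP (9 + t) (41 / 2) (u - 9)) (PP (9 + t') (41 / 2) (u' - 9)) =
      ev x (ph D) (PP u (33 / 2) t) (PP u' (33 / 2) t') := by
  obtain ⟨a1, a2⟩ := hu
  obtain ⟨a3, a4⟩ := ht
  obtain ⟨a5, a6⟩ := hu'
  obtain ⟨a7, a8⟩ := ht'
  have s0 := (convex_Qo _).segment_subset
    (PP_A (x := u) (t := t) (by linarith) (by linarith) (by linarith) (by linarith))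
    (PP_A (x := u') (t := t') (by linarith) (by linarith) (by linarith) (by linarith))
  have s1 := (convex_box _).segment_subset
    (PP_In (x := u) (z := 33 / 2) (t := t) (by linarith) (by linarith) (by norm_num) a3 a4)
    (PP_In (x := u') (z := 33 / 2) (t := t') (by linarith) (by linarith) (by norm_num) a7 a8)
  have s2 := (convex_box _).segment_subset
    (PP_In (x := 9 + t) (z := 41 / 2) (t := u - 9) (by linarith) (by linarith) (by norm_num)
      (by linarith) (by linarith))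
    (PP_In (x := 9 + t') (z := 41 / 2) (t := u' - 9) (by linarith) (by linarith) (by norm_num)
      (by linarith) (by linarith))
  refine ev_congr (s2.trans hI) (s1.trans hI) fun τ => ?_
  have m0 : Path.segment (PP u (33 / 2) t) (PP u' (33 / 2) t') τ ∈
      segment ℝ (PP u (33 / 2) t) (PP u' (33 / 2) t') :=
    Path.range_segment (PP u (33 / 2) t) (PP u' (33 / 2) t') ▸ mem_range_self τ
  refine Eq.trans ?_ (Dom.q_glue (hI (s1 m0)) (s0 m0))
  change D.q (AffineMap.lineMap _ _ (τ : ℝ)) = D.q (thR 1 (AffineMap.lineMap _ _ (τ : ℝ)))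
  rw [seg_PP, seg_PP, thR_PP]
  congr 2 <;> ring

/-- the meridian relation at height `z` -/
def Mer (x : D.M) (z : ℝ) : Prop :=
  ev x (ph D) (PP (21 / 2) z (5 / 2)) (PP (33 / 4) z (5 / 2)) *
    ev x (ph D) (PP (33 / 4) z (5 / 2)) (PP (33 / 4) z (1 / 2)) *
    ev x (ph D) (PP (33 / 4) z (1 / 2)) (PP (21 / 2) z (1 / 2)) =
  ev x (ph D) (PP (21 / 2) z (5 / 2)) (PP (21 / 2) z (1 / 2))

/-- `a` is the boundary of the box of level `s` -/
structure IsBox (a : Based sph x) (e : S2 → R4) (s : ℝ) : Prop where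
  emb : IsEmbedding e
  mem : ∀ p, e p ∈ D.U
  map : ∀ p, a.surf p = D.q (e p)
  sub : Bd s ⊆ range e

variable {a b : Based sph x} {e e' : S2 → R4} {s : ℝ}

theorem IsBox.seg (H : IsBox a e s) {p p' : S2} {y y' : R4} (hp : e p = y) (hp' : e p' = y')
    (h : segment ℝ y y' ⊆ Bd s) : rv a p' = rv a p * ev x (ph D) y y' :=
  rv_seg (ph D) a H.emb H.mem H.map hp hp' (h.trans H.sub)

theorem IsBox.around (H : IsBox a e 0) {z : ℝ} (hm : Mer x z) (hl : box bIn ⊆ D.U)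
    (hz0 : 15 ≤ z ∧ z ≤ 22) {u : ℝ} (h0 : 9 < u) (h1 : u < 12)
    {p p' : S2} (hp : e p = PP u z (5 / 2)) (hp' : e p' = PP u z (1 / 2)) :
    rv a p' = rv a p * ev x (ph D) (PP u z (5 / 2)) (PP u z (1 / 2)) := by
  have hz : |z - 37 / 2| ≤ 17 / 4 := abs_le.2 ⟨by linarith [hz0.1], by linarith [hz0.2]⟩
  have hP : ∀ u t : ℝ, 9 < u → u < 12 → 1 / 8 ≤ t → t ≤ 23 / 8 → PP u z t ∈ box bIn :=
    fun u t a b => PP_In a.le b.le hz0
  have hz' : |z - 37 / 2| ≤ 17 / 4 + 0 := by linarith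
  have a0 : |u - 21 / 2| ≤ 9 / 4 + 0 := abs_le.2 ⟨by linarith, by linarith⟩
  have a1 : |(21 / 2 : ℝ) - 21 / 2| ≤ 9 / 4 + 0 := abs_le.2 ⟨by linarith, by linarith⟩
  have a2 : |(33 / 4 : ℝ) - 21 / 2| ≤ 9 / 4 + 0 := abs_le.2 ⟨by linarith, by linarith⟩
  have t1 : |(5 / 2 : ℝ) - 3 / 2| = 1 + 0 := by norm_num
  have t2 : |(1 / 2 : ℝ) - 3 / 2| = 1 + 0 := by norm_num [abs_of_neg]
  have s1 := seg_top a0 a1 hz' t1
  have s2 := seg_top a1 a2 hz' t1
  have s3 := seg_side hz (t := 5 / 2) (t' := 1 / 2) (by linarith) (by linarith)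
  have s4 := seg_top a2 a1 hz' t2
  have s5 := seg_top a1 a0 hz' t2
  obtain ⟨p1, k1⟩ := H.sub (s1 (right_mem_segment _ _ _))
  obtain ⟨p2, k2⟩ := H.sub (s2 (right_mem_segment _ _ _))
  obtain ⟨p3, k3⟩ := H.sub (s3 (right_mem_segment _ _ _))
  obtain ⟨p4, k4⟩ := H.sub (s4 (right_mem_segment _ _ _))
  have m1 := hP u (5 / 2) h0 h1 (by norm_num) (by norm_num)
  have m2 := hP (21 / 2) (5 / 2) (by norm_num) (by norm_num) (by norm_num) (by norm_num)
  have m3 := hP (21 / 2) (1 / 2) (by norm_num) (by norm_num) (by norm_num) (by norm_num)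
  have m4 := hP u (1 / 2) h0 h1 (by norm_num) (by norm_num)
  rw [H.seg k4 hp' s5, H.seg k3 k4 s4, H.seg k2 k3 s3, H.seg k1 k2 s2, H.seg hp k1 s1,
    ← ev_tri (convex_box _) hl m1 m3 m4, ← ev_tri (convex_box _) hl m1 m2 m3, ← hm]
  simp only [mul_assoc]

/-- the pairs of points where the first sphere is in the first cube -/
theorem pair_A (H : IsBox a e 0) (H' : IsBox b e' s) (hm : Mer x (33 / 2))
    (hI : box bIn ⊆ D.U) {t : ℝ} (hs : 0 ≤ s) (hs' : s < 1 / 8)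
    (ht : |t - 3 / 2| = 1 + s) {p p' q q' : S2} (hp : e p = PP (9 + t) (33 / 2) (5 / 2))
    (hp' : e p' = PP (9 + t) (33 / 2) (1 / 2)) (hq : e' q = PP (23 / 2) (41 / 2) t)
    (hq' : e' q' = PP (19 / 2) (41 / 2) t) : el a b (p', q') = el a b (p, q) := by
  have h1 := abs_lt.1 (show |t - 3 / 2| < 9 / 8 by linarith)
  refine el_eq (H.around hm hI (by norm_num) (by linarith) (by linarith) hp hp') ?_
  rw [← ev_glue hI ⟨by linarith, by linarith⟩ (by norm_num) ⟨by linarith, by linarith⟩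
    (by norm_num), add_sub_cancel_left]
  norm_num
  exact H'.seg hq hq' (seg_top (abs_le.2 ⟨by linarith, by linarith⟩)
    (abs_le.2 ⟨by linarith, by linarith⟩) (abs_le.2 ⟨by linarith, by linarith⟩) ht)

/-- the pairs of points where the first sphere is in the second cube -/
theorem pair_B (H : IsBox a e 0) (H' : IsBox b e' s) (hm : Mer x (41 / 2))
    (hI : box bIn ⊆ D.U) {t : ℝ} (hs : 0 ≤ s) (hs' : s < 1 / 8)
    (ht : |t - 3 / 2| = 1 + s) {p p' q q' : S2} (hp : e p = PP (9 + t) (41 / 2) (5 / 2))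
    (hp' : e p' = PP (9 + t) (41 / 2) (1 / 2)) (hq : e' q = PP (23 / 2) (33 / 2) t)
    (hq' : e' q' = PP (19 / 2) (33 / 2) t) : el a b (p', q') = el a b (p, q) := by
  have h1 := abs_lt.1 (show |t - 3 / 2| < 9 / 8 by linarith)
  refine el_eq (H.around hm hI (by norm_num) (by linarith) (by linarith) hp hp') ?_
  have k := ev_glue (x := x) hI (u := 23 / 2) (u' := 19 / 2) (t := t) (t' := t)
    (by norm_num) ⟨by linarith, by linarith⟩ (by norm_num) ⟨by linarith, by linarith⟩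
  norm_num at k
  rw [k]
  exact H'.seg hq hq' (seg_top (abs_le.2 ⟨by linarith, by linarith⟩)
    (abs_le.2 ⟨by linarith, by linarith⟩) (abs_le.2 ⟨by linarith, by linarith⟩) ht)

end Pair

section Box

variable {DD : Dom} (G : Good DD) {s s' : ℝ}
include G

theorem bx_DD (hs : 0 ≤ s) (hs' : s < 1 / 8) : Bd s ⊆ DD.U := (Bd_Ug hs hs').trans G.ug

theorem nhds_Bd (hs : 0 ≤ s) (hs' : s < 1 / 8) {y : R4} (h : y ∈ Bd s) : DD.U ∈ 𝓝 y :=
  mem_of_superset (isOpen_Ug.mem_nhds (Bd_Ug hs hs' h)) G.ug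

theorem top_DD {z : ℝ} (hz : 15 < z ∧ z < 22) : PP (21 / 2) z (5 / 2) ∈ DD.U :=
  bx_DD G le_rfl (by norm_num) (by
    simpa [tv] using PP_Bd (x := 21 / 2) le_rfl (by norm_num) hz true)

theorem bIn_DD : box bIn ⊆ DD.U :=
  G.ok _ ok_bIn _ (PP_In (by norm_num) (by norm_num) (by norm_num) (by norm_num) (by norm_num))
    (top_DD G (z := 16) (by norm_num))

theorem mer_DD (x : DD.M) {z : ℝ} (hz : 15 < z ∧ z < 22) : Mer x z :=
  mer G.ok (by norm_num) (by norm_num) ⟨hz.1.le, hz.2.le⟩ (by norm_num) (by norm_num) (top_DD G hz)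

variable {x : DD.M} {a b : Based sph x}

theorem isBox (hs : 0 ≤ s) (hs' : s < 1 / 8) (h : ∀ p, a.surf p = DD.q (bx s p)) :
    IsBox a (bx s) s :=
  ⟨isEmbedding_bx hs, fun p => bx_DD G hs hs' (bx_Bd hs p), h, fun _ hy => ⟨_, bx_un hs hy⟩⟩

theorem cross_A (hs : 0 ≤ s) (hs1 : s < 1 / 8) (h1 : 0 ≤ s') (h2 : s' < 1 / 8)
    (ha : ∀ p, a.surf p = DD.q (bx s p)) (hb : ∀ p, b.surf p = DD.q (bx s' p)) (c c' : Bool) :
    a.surf (un s (yA s s' c c')) = b.surf (un s' (yB s' s c' c)) ∧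
      Cross sph sph a.surf b.surf (un s (yA s s' c c')) (un s' (yB s' s c' c)) (sg c * sg c') := by
  have m := yA_Qo hs hs1 h1 h2 c c'
  have k := tv_pos hs1 hs c
  have k' := tv_pos h2 h1 c'
  obtain ⟨α, a1, a2⟩ := face hs (x := 9 + tv s' c') (z := 33 / 2) ⟨by linarith, by linarith⟩
    (by norm_num) c
  obtain ⟨β, b1, b2⟩ := face h1 (x := 9 + tv s c) (z := 41 / 2) ⟨by linarith, by linarith⟩
    (by norm_num) c'
  refine ⟨?_, Dom.cross_glue (sg_mul c c') a1 b1 (nhds_Bd G hs hs1 (yA_Bd hs h1 h2 c c')) m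
    (det_A c c') (a2.mono fun u hu => by rw [ha, hu]; rfl)
    (b2.mono fun u hu => by rw [hb, hu, thR_yA]; rfl)⟩
  rw [ha, hb, bx_un hs (yA_Bd hs h1 h2 c c'), bx_un h1 (yB_Bd h1 hs hs1 c' c), ← thR_yA,
    Dom.q_glue (bx_DD G hs hs1 (yA_Bd hs h1 h2 c c')) m]

theorem cross_B (hs : 0 ≤ s) (hs1 : s < 1 / 8) (h1 : 0 ≤ s') (h2 : s' < 1 / 8)
    (ha : ∀ p, a.surf p = DD.q (bx s p)) (hb : ∀ p, b.surf p = DD.q (bx s' p)) (c c' : Bool) :
    a.surf (un s (yB s s' c c')) = b.surf (un s' (yA s' s c' c)) ∧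
      Cross sph sph a.surf b.surf (un s (yB s s' c c')) (un s' (yA s' s c' c)) (sg c * sg c') := by
  have m := yA_Qo h1 h2 hs hs1 c' c
  have k := tv_pos hs1 hs c
  have k' := tv_pos h2 h1 c'
  obtain ⟨α, a1, a2⟩ := face hs (x := 9 + tv s' c') (z := 41 / 2) ⟨by linarith, by linarith⟩
    (by norm_num) c
  obtain ⟨β, b1, b2⟩ := face h1 (x := 9 + tv s c) (z := 33 / 2) ⟨by linarith, by linarith⟩
    (by norm_num) c'
  refine ⟨(cross_A G h1 h2 hs hs1 hb ha c' c).1.symm,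
    Dom.cross_glue' (sg_mul c c') a1 b1 (nhds_Bd G h1 h2 (yA_Bd h1 hs hs1 c' c)) m
    (det_B c c') (a2.mono fun u hu => by rw [ha, hu, thR_yA]; rfl)
    (b2.mono fun u hu => by rw [hb, hu]; rfl)⟩

/-- all the intersection points of two boxes -/
theorem meet (hs : 0 ≤ s) (hs1 : s < 1 / 8) (h1 : 0 ≤ s') (h2 : s' < 1 / 8)
    (ha : ∀ p, a.surf p = DD.q (bx s p)) (hb : ∀ p, b.surf p = DD.q (bx s' p)) {p q : S2}
    (h : a.surf p = b.surf q) : bx s p = bx s' q ∨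
      (∃ c c', p = un s (yA s s' c c') ∧ q = un s' (yB s' s c' c)) ∨
      ∃ c c', p = un s (yB s s' c c') ∧ q = un s' (yA s' s c' c) := by
  rw [ha, hb, Dom.q_eq (bx_DD G hs hs1 (bx_Bd hs p)) (bx_DD G h1 h2 (bx_Bd h1 q))] at h
  rcases h with k | ⟨i, k1, k2⟩ | ⟨i, k1, k2⟩
  · exact Or.inl k
  · obtain ⟨c, c', e, e'⟩ := Bd_glue hs hs1 h1 (bx_Bd hs p) k1 (k2 ▸ bx_Bd h1 q)
    exact Or.inr (Or.inl ⟨c, c', by rw [yA, ← e, un_bx hs], by rw [yB, ← e', ← k2, un_bx h1]⟩)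
  · obtain ⟨c, c', e, e'⟩ := Bd_glue h1 h2 hs (bx_Bd h1 q) k1 (k2 ▸ bx_Bd hs p)
    exact Or.inr (Or.inr ⟨c', c, by rw [yB, ← e', ← k2, un_bx hs], by rw [yA, ← e, un_bx h1]⟩)

theorem el_A (h1 : 0 ≤ s') (h2 : s' < 1 / 8) (ha : ∀ p, a.surf p = DD.q (bx 0 p))
    (hb : ∀ p, b.surf p = DD.q (bx s' p)) (c' : Bool) :
    el a b (un 0 (yA 0 s' false c'), un s' (yB s' 0 c' false)) =
      el a b (un 0 (yA 0 s' true c'), un s' (yB s' 0 c' true)) := by
  have h0 : (0 : ℝ) < 1 / 8 := by norm_num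
  refine pair_A (isBox G le_rfl h0 ha) (isBox G h1 h2 hb) (mer_DD G x (by norm_num)) (bIn_DD G)
    h1 h2 (tv_abs h1 c') ?_ ?_ ?_ ?_
  · rw [bx_un le_rfl (yA_Bd le_rfl h1 h2 _ _), yA]
    norm_num [tv]
  · rw [bx_un le_rfl (yA_Bd le_rfl h1 h2 _ _), yA]
    norm_num [tv]
  · rw [bx_un h1 (yB_Bd h1 le_rfl h0 _ _), yB]
    congr 1
    norm_num [tv]
  · rw [bx_un h1 (yB_Bd h1 le_rfl h0 _ _), yB]
    congr 1
    norm_num [tv]

theorem el_B (h1 : 0 ≤ s') (h2 : s' < 1 / 8) (ha : ∀ p, a.surf p = DD.q (bx 0 p))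
    (hb : ∀ p, b.surf p = DD.q (bx s' p)) (c' : Bool) :
    el a b (un 0 (yB 0 s' false c'), un s' (yA s' 0 c' false)) =
      el a b (un 0 (yB 0 s' true c'), un s' (yA s' 0 c' true)) := by
  have h0 : (0 : ℝ) < 1 / 8 := by norm_num
  refine pair_B (isBox G le_rfl h0 ha) (isBox G h1 h2 hb) (mer_DD G x (by norm_num)) (bIn_DD G)
    h1 h2 (tv_abs h1 c') ?_ ?_ ?_ ?_
  · rw [bx_un le_rfl (yB_Bd le_rfl h1 h2 _ _), yB]
    norm_num [tv]
  · rw [bx_un le_rfl (yB_Bd le_rfl h1 h2 _ _), yB]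
    norm_num [tv]
  · rw [bx_un h1 (yA_Bd h1 le_rfl h0 _ _), yA]
    congr 1
    norm_num [tv]
  · rw [bx_un h1 (yA_Bd h1 le_rfl h0 _ _), yA]
    congr 1
    norm_num [tv]

/-- the reduced self-intersection invariant of the sphere vanishes -/
theorem mu_box (ha : ∀ p, a.surf p = DD.q (bx 0 p)) : MuZero a := by
  have h0 : (0 : ℝ) < 1 / 8 := by norm_num
  have A := yA_Bd le_rfl le_rfl h0
  have B := yB_Bd le_rfl le_rfl h0
  refine mu_zero a (κ := Bool)
    ⟨fun i => (un 0 (yA 0 0 i.2 i.1), un 0 (yB 0 0 i.1 i.2)), fun i j e => ?_⟩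
    (fun i => sg i.2 * sg i.1) (fun p q e e' => ?_) (fun i j e => ?_)
    (fun i => cross_A G le_rfl h0 le_rfl h0 ha ha i.2 i.1) sg_false (el_A G le_rfl h0 ha ha)
  · obtain ⟨k1, -, k2⟩ := PP_inj (un_inj le_rfl (A _ _) (A _ _) (congrArg Prod.fst e))
    exact Prod.ext (tv_inj le_rfl (add_left_cancel k1)) (tv_inj le_rfl k2)
  · rcases meet G le_rfl h0 le_rfl h0 ha ha e' with k | ⟨c, c', rfl, rfl⟩ | ⟨c, c', rfl, rfl⟩
    · exact absurd ((isEmbedding_bx le_rfl).injective k) e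
    · exact ⟨(c', c), Or.inl rfl⟩
    · exact ⟨(c, c'), Or.inr rfl⟩
  · have := (PP_inj (un_inj le_rfl (A _ _) (B _ _) e)).2.1
    norm_num at this

/-- the intersection number of the sphere with its push-off vanishes -/
theorem lam_box (h1 : 0 < s') (h2 : s' < 1 / 8) (ha : ∀ p, a.surf p = DD.q (bx 0 p))
    (hb : ∀ p, b.surf p = DD.q (bx s' p)) : Lam a b 0 := by
  have h0 : (0 : ℝ) < 1 / 8 := by norm_num
  have A := yA_Bd le_rfl h1.le h2
  have B := yB_Bd le_rfl h1.le h2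
  refine lam_zero a b (κ := Bool ⊕ Bool)
    ⟨fun i => Sum.elim (fun c' => (un 0 (yA 0 s' i.2 c'), un s' (yB s' 0 c' i.2)))
      (fun c' => (un 0 (yB 0 s' i.2 c'), un s' (yA s' 0 c' i.2))) i.1, ?_⟩
    (fun i => sg i.2 * sg (Sum.elim id id i.1)) (fun p q e => ?_) ?_ (fun k => sg_false _) ?_
  · rintro ⟨c | c, d⟩ ⟨c' | c', d'⟩ e
    · obtain ⟨k1, -, k2⟩ := PP_inj (un_inj le_rfl (A _ _) (A _ _) (congrArg Prod.fst e))
      rw [tv_inj h1.le (add_left_cancel k1), show d = d' from tv_inj le_rfl k2]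
    · have := (PP_inj (un_inj le_rfl (A _ _) (B _ _) (congrArg Prod.fst e))).2.1
      norm_num at this
    · have := (PP_inj (un_inj le_rfl (B _ _) (A _ _) (congrArg Prod.fst e))).2.1
      norm_num at this
    · obtain ⟨k1, -, k2⟩ := PP_inj (un_inj le_rfl (B _ _) (B _ _) (congrArg Prod.fst e))
      rw [tv_inj h1.le (add_left_cancel k1), show d = d' from tv_inj le_rfl k2]
  · rcases meet G le_rfl h0 h1.le h2 ha hb e with k | ⟨c, c', rfl, rfl⟩ | ⟨c, c', rfl, rfl⟩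
    · exact absurd ((bx_Bd le_rfl p).2.symm.trans (k ▸ (bx_Bd h1.le q).2)) h1.ne
    · exact ⟨(Sum.inl c', c), rfl⟩
    · exact ⟨(Sum.inr c', c), rfl⟩
  · rintro ⟨c' | c', c⟩
    · exact cross_A G le_rfl h0 h1.le h2 ha hb c c'
    · exact cross_B G le_rfl h0 h1.le h2 ha hb c c'
  · rintro (c' | c')
    · exact el_A G h1.le h2 ha hb c'
    · exact el_B G h1.le h2 ha hb c'

end Box

section Signs

variable {D : Dom} {f : D2 → D.M} {g : S2 → D.M}

/-- the double point of the disc -/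
theorem cross_ff (hU : D.U ∈ 𝓝 (![21 / 2, 9 / 2, 25 / 2, 3 / 2] : R4))
    (hf : ∀ p, f p = D.q (Mf.fx p)) :
    Cross disc disc f f (prj (pS Mf.rF 0 ![0, 2, 1 / 4])) (prj (pS Mf.rF 0 ![0, -2, 1 / 4])) (-1) := by
  obtain ⟨h1, h2⟩ := Mf.fx_face (y := 0) (z := 2) (by norm_num) (by norm_num)
  obtain ⟨h3, h4⟩ := Mf.fx_face (y := 0) (z := -2) (by norm_num) (by norm_num)
  refine Dom.cross_glue (Or.inr rfl) h1 h3 hU Mf.fA_mem
    (v0 := ![0, 1, 0, 0]) (v1 := ![0, 0, 1, 0]) (v2 := ![0, 1, 0, 0]) (v3 := ![0, 0, 1, 0]) ?_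
    (h2.mono fun u hu => ?_) (h4.mono fun u hu => ?_)
  · rw [Mf.comp_ppi_zero.1, Mf.comp_ppi_zero.2]
    simp [Matrix.det_succ_row_zero, Fin.sum_univ_succ, Fin.succAbove]
  · rw [hf, hu]
    norm_num
  · rw [hf, hu, Mf.thR_fA]
    norm_num

/-- the same double point, in the other order -/
theorem cross_ff' (hU : D.U ∈ 𝓝 (![21 / 2, 9 / 2, 25 / 2, 3 / 2] : R4))
    (hf : ∀ p, f p = D.q (Mf.fx p)) :
    Cross disc disc f f (prj (pS Mf.rF 0 ![0, -2, 1 / 4])) (prj (pS Mf.rF 0 ![0, 2, 1 / 4])) (-1) := by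
  obtain ⟨h1, h2⟩ := Mf.fx_face (y := 0) (z := -2) (by norm_num) (by norm_num)
  obtain ⟨h3, h4⟩ := Mf.fx_face (y := 0) (z := 2) (by norm_num) (by norm_num)
  refine Dom.cross_glue' (Or.inr rfl) h1 h3 hU Mf.fA_mem
    (v0 := ![0, 1, 0, 0]) (v1 := ![0, 0, 1, 0]) (v2 := ![0, 1, 0, 0]) (v3 := ![0, 0, 1, 0]) ?_
    (h2.mono fun u hu => ?_) (h4.mono fun u hu => ?_)
  · rw [Mf.comp_ppi_zero.1, Mf.comp_ppi_zero.2]
    simp [Matrix.det_succ_row_zero, Fin.sum_univ_succ, Fin.succAbove]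
    norm_num
  · rw [hf, hu, Mf.thR_fA]
    norm_num
  · rw [hf, hu]
    norm_num

/-- the intersection point of the disc and the sphere -/
theorem cross_fg (hU : D.U ∈ 𝓝 (![21 / 2, 9 / 2, 57 / 4, 3 / 2] : R4))
    (hf : ∀ p, f p = D.q (Mf.fx p)) (hg : ∀ p, g p = D.q (Mf.bx 0 p)) :
    Cross disc sph f g (prj (pS Mf.rF 0 ![0, 15 / 4, 1 / 4])) (pS Mf.rB 0 ![0, -17 / 4, 0]) 1 := by
  obtain ⟨h1, h2⟩ := Mf.fx_face (y := 0) (z := 15 / 4) (by norm_num) (by norm_num [abs_of_pos])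
  have hs : |(0 : ℝ)| < 1 / 2 := by norm_num
  have h3 := gs_ok (w := ![0, -17 / 4, 0]) (a := ![1, 0, 0]) (b := ![0, 0, 1]) (Mf.rB_pos hs) (by
    rw [Matrix.det_fin_three]
    simp
    norm_num)
  have h4 := eventually_sh_gs (w := ![0, -17 / 4, 0]) (a := ![1, 0, 0]) (b := ![0, 0, 1])
    (Mf.rB_pos hs) (k := 1) (by
      change |(-17 / 4 : ℝ)| = 17 / 4 + 0
      norm_num [abs_of_neg]) (fun i hi => by
      fin_cases i
      · change |(0 : ℝ)| < 9 / 4 + 0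
        norm_num
      · exact absurd rfl hi
      · change |(0 : ℝ)| < 1 + 0
        norm_num) rfl rfl
  refine Dom.cross (Or.inl rfl) h1 h3 hU
    (v0 := ![0, 1, 0, 0]) (v1 := ![0, 0, 1, 0]) (v2 := ![1, 0, 0, 0]) (v3 := ![0, 0, 0, 1]) ?_
    (h2.mono fun u hu => ?_) (h4.mono fun u hu => ?_)
  · simp [Matrix.det_succ_row_zero, Fin.sum_univ_succ, Fin.succAbove]
  · rw [hf, hu]
    norm_num
  · rw [hg, Mf.bx, hu]
    congr 1
    funext j
    fin_cases j <;> simp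
    norm_num

end Signs

open ND Cov in
/-- no disc all of whose double point loops are null-homotopic -/
theorem noNull {U : Set R4} (hO : U ⊆ OO) (hA : ∀ y ∈ AA, y ∈ U → ∃ z : Circ, y = c0 z.1)
    {X : Type} [TopologicalSpace X] [SimplyConnectedSpace X]
    [LocallyPathConnectedSpace X] (D : C(X, Wb))
    (hK : ∀ (x x' : X) (h : D x = D x') (l : Path x x'),
      ((l.map D.continuous).cast rfl h).Homotopic (Path.refl (D x)))
    (hU : ∀ x, ∃ y ∈ U, D x = pr (pt 1 y)) (ι : C(Circ, X))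
    (hb : ∀ z : Circ, D (ι z) = pr (pt 1 (c0 z.1))) : False := by
  obtain ⟨F, ⟨h0, h1⟩, -⟩ := cover.isCoveringMap.existsUnique_continuousMap_lifts D
    (ι z0) (pt 1 (c0 z0.1)) (hb z0).symm
  have h1' : ∀ x, pr (F x) = D x := congrFun h1
  have hinj : ∀ x x', D x = D x' → F x = F x' := by
    intro x x' h
    let l : Path x x' := PathConnectedSpace.somePath x x'
    have k := cover.isCoveringMap.liftPath_apply_one_eq_of_homotopicRel (hK x x' h l) (F x)
      ((Path.source _).trans (h1' x).symm) ((Path.source _).trans (h1' x).symm)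
    have k1 : ((l.map F.continuous : Path (F x) (F x')) : C(unitInterval, Wt)) =
        cover.isCoveringMap.liftPath ((l.map D.continuous).cast rfl h) (F x)
          ((Path.source _).trans (h1' x).symm) :=
      (cover.isCoveringMap.eq_liftPath_iff' _).2 ⟨funext fun t => h1' _, Path.source _⟩
    have k2 : ((Path.refl (F x) : Path (F x) (F x)) : C(unitInterval, Wt)) =
        cover.isCoveringMap.liftPath (Path.refl (D x)) (F x)
          ((Path.source _).trans (h1' x).symm) :=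
      (cover.isCoveringMap.eq_liftPath_iff' _).2 ⟨funext fun _ => h1' _, rfl⟩
    have k3 := (congrFun (congrArg DFunLike.coe k1) 1).trans
      (k.trans (congrFun (congrArg DFunLike.coe k2) 1).symm)
    exact ((l.map F.continuous).target.symm.trans k3).symm
  have hc0 : Continuous fun z : Circ => pt 1 (c0 z.1) :=
    (continuous_pt 1).comp (continuous_c0.comp continuous_subtype_val)
  have h2 : ∀ z : Circ, F (ι z) = pt 1 (c0 z.1) := by
    have : PreconnectedSpace Circ := Subtype.preconnectedSpace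
      (isPreconnected_sphere (by simp [← Module.finrank_eq_rank]) _ _)
    exact congrFun (cover.isCoveringMap.eq_of_comp_eq (g₁ := fun z : Circ => F (ι z))
      (g₂ := fun z : Circ => pt 1 (c0 z.1)) (F.continuous.comp ι.continuous) hc0
      (funext fun z => (h1' _).trans (hb z)) z0 h0)
  let T : Set Wt := pt 1 '' AA ∪ range F
  let φ : C(AA, T) := ⟨fun y => ⟨pt 1 y.1, Or.inl ⟨y.1, y.2, rfl⟩⟩,
    ((continuous_pt 1).comp continuous_subtype_val).subtype_mk _⟩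
  let F' : C(X, T) := ⟨fun x => ⟨F x, Or.inr ⟨x, rfl⟩⟩, F.continuous.subtype_mk _⟩
  let v : C(Circ, T) := φ.comp ⟨fun z => ⟨b1 z.1, b1_mem z⟩,
    (continuous_b1.comp continuous_subtype_val).subtype_mk _⟩
  have h3 := b1_triv (φ := φ) (F'.comp ι) (fun z _ => Subtype.ext (h2 z))
    ((SimplyConnectedSpace.paths_homotopic (alP.map ι.continuous) (beP.map ι.continuous)).map F')
    v (fun _ _ => rfl)
  obtain ⟨P, hP⟩ := extend v h3
  have key : ∀ y ∈ AA, ∀ x, pr (pt 1 y) = pr (F x) → pt 1 y = F x := by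
    intro y hy x h
    obtain ⟨y', hy', e⟩ := hU x
    rw [h1', e] at h
    obtain rfl : y = y' := Q.eq_of_q_eq (AA_cube hy) h
    obtain ⟨z, rfl⟩ := hA _ hy hy'
    rw [hinj _ _ (e.trans (hb z).symm), h2]
  refine Q.no_lift (fun x => (P x).1) (continuous_subtype_val.comp P.continuous) (fun x => ?_)
    (fun z => ?_) fun x x' h => ?_
  · rcases (P x).2 with ⟨y, hy, e⟩ | ⟨x', e⟩
    · exact ⟨1, y, AA_sub hy, AA_bot hy, e.symm⟩
    · obtain ⟨y, hy, e'⟩ := hU x'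
      obtain ⟨g, hg⟩ := pr_eq ((h1' x').trans e')
      exact ⟨g, y, Q.mem_OO' (hO hy), fun h => absurd h (hO hy).2.1.ne', e.symm.trans hg⟩
  · rw [hP]
    rfl
  · rcases (P x).2 with ⟨y, hy, e⟩ | ⟨a, e⟩ <;> rcases (P x').2 with ⟨y', hy', e'⟩ | ⟨a', e'⟩ <;>
      rw [← e, ← e'] at h ⊢
    · rw [Q.eq_of_q_eq (AA_cube hy) h]
    · exact key y hy a' h
    · exact (key y' hy' a h.symm).symm
    · rw [h1', h1'] at h
      exact hinj _ _ h

/-- **Every disc in the manifold with the boundary `c0` has a double point loop which is not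
null-homotopic.** -/
theorem loop_MM {DD : Dom} (G : Good DD) (D : C(D2, DD.M)) {c : D2 → R4} (hD : ∀ p, c p ∈ DD.U)
    (hb : ∀ p : D2, ‖p.1‖ = 1 → D p = DD.q (c p))
    (hc : ∀ p : D2, ‖p.1‖ = 1 →
      c p = c0 (p.1 0 / max |p.1 0| |p.1 1|, p.1 1 / max |p.1 0| |p.1 1|)) :
    ∃ (p q : D2) (h : D p = D q) (l : Path p q),
      ¬ ((l.map D.continuous).cast rfl h).Homotopic (Path.refl (D p)) := by
  by_contra hn
  push Not at hn
  have : ContractibleSpace D2 := (convex_closedBall (0 : E 2) 1).contractibleSpace ⟨0, by simp⟩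
  have : LocallyPathConnectedSpace D2 := (convex_closedBall (0 : E 2) 1).locallyPathConnectedSpace
  let j : C(DD.M, Cov.Wb) := ⟨DD.inc, DD.continuous_inc⟩
  refine noNull DD.sub G.aa (j.comp D) (fun x x' h l => (hn x x' (DD.inc_injective h) l).map j)
    (fun x => ?_) ⟨fun z => rd z.toDisc, continuous_rd.comp (continuous_subtype_val.subtype_mk _)⟩
    fun z => ?_
  · obtain ⟨y, hy, e⟩ := Dom.exists_q (D x)
    exact ⟨y, hy, by
      change DD.inc (D x) = _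
      rw [← e, Dom.inc_q hy]
      rfl⟩
  · have hn := inv_ne_zero (rd_pos z.toDisc).ne'
    have e : ((rd z.toDisc).1 0 / max |(rd z.toDisc).1 0| |(rd z.toDisc).1 1|,
        (rd z.toDisc).1 1 / max |(rd z.toDisc).1 0| |(rd z.toDisc).1 1|) = z.1 := by
      rw [rd_max, rd_zero, rd_one]
      exact Prod.ext (mul_div_cancel_left₀ _ hn) (mul_div_cancel_left₀ _ hn)
    change DD.inc (D (rd z.toDisc)) = _
    rw [hb _ (norm_rd z), Dom.inc_q (hD _), hc _ (norm_rd z), e]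
    rfl

theorem isLocalHomeomorph_q (D : Dom) : IsLocalHomeomorph fun y : D.U => D.q y.1 := by
  rw [isLocalHomeomorph_iff_isOpenEmbedding_restrict]
  intro y
  have ho : IsOpen ((Subtype.val : D.U → R4) ⁻¹' Metric.ball y.1 (1 / 2)) :=
    Metric.isOpen_ball.preimage continuous_subtype_val
  refine ⟨_, ho.mem_nhds (Metric.mem_ball_self (by norm_num)),
    IsOpenEmbedding.of_continuous_injective_isOpenMap
      (D.isOpenQuotientMap_q.continuous.comp continuous_subtype_val) ?_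
      (D.isOpenQuotientMap_q.isOpenMap.domRestrict ho)⟩
  intro a a' e
  exact Subtype.ext (Subtype.ext (Mf.Q_injOn y.1 le_rfl a.2 a'.2
    ((Dom.q_eq_iff_Q a.1.2 a'.1.2).1 e)))

/-- an embedding onto an open part of the domain gives a local homeomorphism to the manifold -/
theorem isLocalHomeomorph_of_emb {D : Dom} {X : Type} [TopologicalSpace X] {F : X → R4}
    (e : IsEmbedding F) (hD : ∀ x, F x ∈ D.U) {W : Set R4} (hW : IsOpen W)
    (h : ∀ y ∈ D.U, y ∈ range F ↔ y ∈ W) : IsLocalHomeomorph fun x => D.q (F x) := by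
  have h : IsOpenEmbedding fun x => (⟨F x, hD x⟩ : D.U) := by
    refine ⟨IsEmbedding.of_comp (e.continuous.subtype_mk _) continuous_subtype_val e, ?_⟩
    have e2 : range (fun x => (⟨F x, hD x⟩ : D.U)) = Subtype.val ⁻¹' W := by
      ext y
      exact (exists_congr fun x => Subtype.ext_iff).trans (h y.1 y.2)
    rw [e2]
    exact hW.preimage continuous_subtype_val
  exact (isLocalHomeomorph_q D).comp h.isLocalHomeomorph

section Data

variable {DD : Dom} (G : Good DD)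
include G

theorem GG_DD (z : S2 × E 2) : GG z ∈ DD.U := G.ug (GG_mem z)

theorem FF_DD (z : D2 × E 2) : FF z ∈ DD.U := G.wf _ (FF_mem z) (le_FF z)

theorem nhds_Wf {y : R4} (h : y ∈ Wf) (h3 : 5 / 4 < y 3) : DD.U ∈ 𝓝 y := by
  filter_upwards [isOpen_Wf.mem_nhds h,
    (continuous_apply 3).continuousAt.eventually (lt_mem_nhds h3)] with z e1 e2
  exact G.wf z e1 e2.le

theorem iff_Wf {y : R4} (h : y ∈ Wf) (h1 : 1 < y 3) : y ∈ DD.U ↔ 5 / 4 ≤ y 3 :=
  ⟨fun k => le_of_not_gt fun e => G.low y h h1 e k, G.wf y h⟩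

theorem not_nhds_Wf {y : R4} (h : y ∈ Wf) (h3 : y 3 = 5 / 4) : DD.U ∉ 𝓝 y := by
  refine not_nhds_of_half h3 ?_
  filter_upwards [isOpen_Wf.mem_nhds h, (continuous_apply 3).continuousAt.eventually
    (lt_mem_nhds (show 1 < y 3 by linarith))] with z e1 e2
  exact iff_Wf G e1 e2

theorem nhds_FF {z : D2 × E 2} : DD.U ∉ 𝓝 (FF z) ↔ ‖z.1.1‖ = 1 :=
  ⟨fun h => FF_eq.1 (le_antisymm (le_of_not_gt fun k => h (nhds_Wf G (FF_mem z) k)) (le_FF z)),
    fun h => not_nhds_Wf G (FF_mem z) (FF_eq.2 h)⟩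

theorem FF_loc : IsLocalHomeomorph fun z => DD.q (FF z) := by
  refine isLocalHomeomorph_of_emb (IsEmbedding.subtypeVal.comp isOpenEmbedding_FU.isEmbedding)
    (FF_DD G) (isOpen_Wf.inter (isOpen_lt (continuous_const (y := (1 : ℝ))) (continuous_apply 3)))
    fun y hy => ?_
  rw [range_FF]
  exact and_congr_right fun h => ⟨fun k => lt_of_lt_of_le (show (1 : ℝ) < 5 / 4 by norm_num) k,
    fun k => (iff_Wf G h k).1 hy⟩

theorem GG_loc : IsLocalHomeomorph fun z => DD.q (GG z) :=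
  isLocalHomeomorph_of_emb isOpenEmbedding_GG.isEmbedding (GG_DD G) isOpen_Ug
    fun y _ => by rw [range_GG]

/-- the normal bundle of the disc in the manifold -/
def Fm : C(D2 × E 2, DD.M) := ⟨fun z => DD.q (FF z), Dom.continuous_q_comp continuous_FF (FF_DD G)⟩

/-- the framed normal bundle of the sphere in the manifold -/
def Gm : C(S2 × E 2, DD.M) := ⟨fun z => DD.q (GG z), Dom.continuous_q_comp continuous_GG (GG_DD G)⟩

/-- the disc -/
def fm : C(D2, DD.M) := (Fm G).comp ⟨fun p => (p, 0), by fun_prop⟩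

/-- the sphere -/
def gm : C(S2, DD.M) := (Gm G).comp ⟨fun p => (p, 0), by fun_prop⟩

theorem fm_fm {p q : D2} : (fm G) p = (fm G) q ↔ p = q ∨ (p = fA ∧ q = fB) ∨ (p = fB ∧ q = fA) :=
  (Dom.q_eq_iff_Q (FF_DD G _) (FF_DD G _)).trans (rel_ff p q)

theorem fm_gm {p : D2} {q : S2} : (fm G) p = (gm G) q ↔ p = fX ∧ q = gX :=
  (Dom.q_eq_iff_Q (FF_DD G _) (GG_DD G _)).trans (rel_fg p q)

theorem gm_gm {p q : S2} : (gm G) p = (gm G) q ↔ p = q ∨
    (∃ e e', p = gA 0 0 e e' ∧ q = gB 0 0 e e') ∨ ∃ e e', p = gB 0 0 e e' ∧ q = gA 0 0 e e' :=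
  (Dom.q_eq_iff_Q (GG_DD G _) (GG_DD G _)).trans (rel_gg p q)

theorem fm_eq (p : D2) : (fm G) p = DD.q (Mf.fx p) := congrArg DD.q (FF_fx p)

theorem gm_eq (p : S2) : (gm G) p = DD.q (bx 0 p) := congrArg DD.q (GG_bx p)

theorem cross_X : Cross disc sph (fm G) (gm G) fX gX 1 :=
  cross_fg (mem_of_superset (isOpen_Ug.mem_nhds yb_Ug) G.ug) (fm_eq G) (gm_eq G)

theorem nhds_fA : DD.U ∈ 𝓝 (![21 / 2, 9 / 2, 25 / 2, 3 / 2] : R4) :=
  nhds_Wf G (FF_fA ▸ FF_mem (fA, 0)) (show (5 / 4 : ℝ) < 3 / 2 by norm_num)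

theorem no_triple (y : DD.M) : {z : (Fin 1 × D2) ⊕ (Fin 1 × S2) |
    Sum.elim (fun w => (fm G) w.2) (fun w => (gm G) w.2) z = y}.encard ≤ 2 := by
  have e : ∀ z : (Fin 1 × D2) ⊕ (Fin 1 × S2),
      DD.inc (Sum.elim (fun w => (fm G) w.2) (fun w => (gm G) w.2) z) = Mf.Q (both z) := by
    rintro (w | w)
    · exact Dom.inc_q (FF_DD G _)
    · exact Dom.inc_q (GG_DD G _)
  refine encard_le_two fun a ha b hb c hc => both_three ?_ ?_
  · rw [← e, ← e, ha, hb]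
  · rw [← e, ← e, ha, hc]

/-- the disc with its whisker -/
def fb : Based disc ((fm G) disc.base) := ⟨(fm G), Path.refl _⟩

theorem exists_gb : ∃ w : Path ((fm G) disc.base) ((gm G) sph.base),
    el (fb G) (⟨(gm G), w⟩ : Based sph ((fm G) disc.base)) (fX, gX) = 1 :=
  exists_whisker (fb G) sph (gm G) ((fm_gm G).2 ⟨rfl, rfl⟩)

/-- the sphere with its whisker -/
def gb : Based sph ((fm G) disc.base) := ⟨(gm G), (exists_gb G).choose⟩

/-- **The disc embedding data.** -/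
def data : Data DD.M disc sph 1 where
  pt0 := (fm G) disc.base
  f _ := (fb G)
  g _ := (gb G)
  F _ := (Fm G)
  G _ := (Gm G)
  F_zero _ _ := rfl
  G_zero _ _ := rfl
  F_loc _ := FF_loc G
  G_loc _ := GG_loc G
  F_bd _ z := (Dom.q_mem_boundary (FF_DD G z)).trans (nhds_FF G)
  G_bd _ z := iff_of_false (fun h => (Dom.q_mem_boundary (GG_DD G z)).1 h
    (mem_of_superset (isOpen_Ug.mem_nhds (GG_mem z)) G.ug)) id
  bd_inj i j p hp q h := by
    refine ⟨Subsingleton.elim _ _, ?_⟩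
    rcases (fm_fm G).1 h with e | ⟨rfl, -⟩ | ⟨rfl, -⟩
    · exact e
    · exact absurd hp (norm_pD _ _).ne
    · exact absurd hp (norm_pD _ _).ne
  double := no_triple G
  f_fin i j := by
    refine (toFinite {(fA, fB), (fB, fA)}).subset ?_
    rintro ⟨p, q⟩ ⟨h1, h2⟩
    rcases (fm_fm G).1 h2 with e | ⟨rfl, rfl⟩ | ⟨rfl, rfl⟩
    · exact absurd (Prod.ext (Subsingleton.elim _ _) e) h1
    · exact Or.inl rfl
    · exact Or.inr rfl
  f_cross i j p q h1 h2 := by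
    rcases (fm_fm G).1 h2 with e | ⟨rfl, rfl⟩ | ⟨rfl, rfl⟩
    · exact absurd (Prod.ext (Subsingleton.elim _ _) e) h1
    · exact ⟨_, cross_ff (nhds_fA G) (fm_eq G)⟩
    · exact ⟨_, cross_ff' (nhds_fA G) (fm_eq G)⟩
  lam_fg i j := by
    rw [if_pos (Subsingleton.elim i j)]
    exact lam_one (fb G) (gb G) (fun _ _ => (fm_gm G).1) ((fm_gm G).2 ⟨rfl, rfl⟩) (cross_X G) (exists_gb G).choose_spec
  lam_gg i j h := absurd (Subsingleton.elim i j) h
  lam_self _ := ⟨v1, lam_box G (s' := 1 / 16) (by norm_num) (by norm_num) (gm_eq G)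
    fun p => congrArg DD.q (GG_bx1 p)⟩
  mu _ := mu_box G (gm_eq G)

theorem data_loop (D : C(D2, DD.M)) (hb : ∀ p : D2, ‖p.1‖ = 1 → D p = ((data G).f 0).surf p) :
    ∃ (p q : D2) (h : D p = D q) (l : Path p q),
      ¬ ((l.map D.continuous).cast rfl h).Homotopic (Path.refl (D p)) :=
  loop_MM G D (c := fun p => FF (p, 0)) (fun _ => FF_DD G _) hb fun _ => FF_c0

theorem data_unique : ∃! z : D2 × S2, ((data G).f 0).surf z.1 = ((data G).g 0).surf z.2 :=
  ⟨(fX, gX), (fm_gm G).2 ⟨rfl, rfl⟩, fun _ h => Prod.ext ((fm_gm G).1 h).1 ((fm_gm G).1 h).2⟩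

end Data

/-- The counterexample in the component of a good domain whose image is compact. -/
theorem exists_compact (D : Dom) (G : Good D) (h0 : D.y0 = yb) {K : Set R4} (hK : IsCompact K)
    (h : Mf.Q '' D.U = Mf.Q '' K) :
    ∃ (M : Type) (_ : TopologicalSpace M) (_ : T2Space M) (_ : SecondCountableTopology M)
      (_ : CompactSpace M) (_ : ConnectedSpace M) (_ : ChartedSpace H4 M), IsOriented M ∧
      ∃ d : Data M disc sph 1, (∃! z : D2 × S2, (d.f 0).surf z.1 = (d.g 0).surf z.2) ∧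
        ∀ F : C(D2, M), (∀ p : D2, ‖p.1‖ = 1 → F p = (d.f 0).surf p) →
          ∃ (p q : D2) (h : F p = F q) (l : Path p q),
            ¬ ((l.map F.continuous).cast rfl h).Homotopic (Path.refl (F p)) :=
  ⟨D.comp.M, inferInstance, inferInstance, inferInstance, Dom.compact_comp hK h, inferInstance,
    inferInstance, D.comp.isOriented, data (G.comp h0), data_unique _, data_loop _⟩

end Vale.Agent.N215.Mc
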